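import Vale.Agent.N174.Cover

/-!
P174: one equation with nontrivial content.
-/

namespace Vale.Agent.N174

open Vale.Agent.P174 Monoid

universe u v w x

/-- extensions of groups with unique products -/
theorem up_ext {E Q : Type*} [Group E] [Group Q] [UniqueProds Q] (p : E →* Q)
    (hk : UniqueProds p.ker) : UniqueProds E where
  uniqueMul_of_nonempty {A B} hA hB := by
    classical
    obtain ⟨a, ha, b, hb, h⟩ := UniqueProds.uniqueMul_of_nonempty (hA.image p) (hB.image p)
    obtain ⟨a₀, ha₀, rfl⟩ := Finset.mem_image.1 ha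
    obtain ⟨b₀, hb₀, rfl⟩ := Finset.mem_image.1 hb
    let A' : Finset p.ker := A.preimage (fun t => a₀ * (t : E)) (fun s _ t _ hst =>
      Subtype.ext (mul_left_cancel hst))
    let B' : Finset p.ker := B.preimage (fun t => (t : E) * b₀) (fun s _ t _ hst =>
      Subtype.ext (mul_right_cancel hst))
    have hAm : ∀ t, t ∈ A' ↔ a₀ * (t : E) ∈ A := fun t => Finset.mem_preimage
    have hBm : ∀ t, t ∈ B' ↔ (t : E) * b₀ ∈ B := fun t => Finset.mem_preimage
    have hA' : A'.Nonempty := ⟨1, by simp [hAm, ha₀]⟩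
    have hB' : B'.Nonempty := ⟨1, by simp [hBm, hb₀]⟩
    obtain ⟨s, hs, t, ht, h'⟩ := hk.uniqueMul_of_nonempty hA' hB'
    have hs' : p (a₀ * (s : E)) = p a₀ := by rw [map_mul, s.2, mul_one]
    have ht' : p ((t : E) * b₀) = p b₀ := by rw [map_mul, t.2, one_mul]
    refine ⟨a₀ * s, (hAm s).1 hs, t * b₀, (hBm t).1 ht, ?_⟩
    intro a b ha hb hab
    obtain ⟨h1, h2⟩ := h (Finset.mem_image_of_mem p ha) (Finset.mem_image_of_mem p hb)
      (by rw [← map_mul, hab, map_mul, hs', ht'])
    have h3 : a₀⁻¹ * a ∈ p.ker := by simp [MonoidHom.mem_ker, h1]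
    have h4 : b * b₀⁻¹ ∈ p.ker := by simp [MonoidHom.mem_ker, h2]
    obtain ⟨h5, h6⟩ := h' (a := ⟨_, h3⟩) (b := ⟨_, h4⟩) (by simpa [hAm] using ha)
      (by simpa [hBm] using hb) (Subtype.ext (by
        show a₀⁻¹ * a * (b * b₀⁻¹) = s * t
        calc a₀⁻¹ * a * (b * b₀⁻¹) = a₀⁻¹ * (a * b) * b₀⁻¹ := by group
          _ = s * t := by rw [hab]; group))
    rw [← h5, ← h6]
    simp

theorem up_semidirect {N Q : Type*} [Group N] [Group Q] [hN : UniqueProds N] [UniqueProds Q]
    (a : Q →* MulAut N) : UniqueProds (N ⋊[a] Q) := by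
  refine up_ext SemidirectProduct.rightHom ?_
  rw [← SemidirectProduct.range_inl_eq_ker_rightHom]
  exact (MonoidHom.ofInjective
    (SemidirectProduct.inl_injective (φ := a))).uniqueProds_iff.1 hN

variable {G : Type u} [Group G] {J : Type w} {Q : Type x} [Group Q]

theorem chain_translate (φ : Coprod G (FreeGroup J) →* Q) (q : Q) (u : Coprod G (FreeGroup J))
    (y : Q) (j : J) (z : Q) :
    Multiplicative.toAdd (chain φ u (y * q)) (j, z * q) =
      Multiplicative.toAdd (chain φ u y) (j, z) := by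
  let a : Multiplicative (J × Q →₀ ℤ) →* Multiplicative ℤ :=
    AddMonoidHom.toMultiplicative (Finsupp.applyAddHom (j, z * q))
  let b : Multiplicative (J × Q →₀ ℤ) →* Multiplicative ℤ :=
    AddMonoidHom.toMultiplicative (Finsupp.applyAddHom (j, z))
  have h1 : IsCoc φ fun u (y : Q) => chain φ u (y * q) := by
    intro u u' y
    show chain φ (u * u') (y * q) = chain φ u (y * q) * chain φ u' ((φ u)⁻¹ * y * q)
    rw [chain_coc φ u u' (y * q), smul_eq_mul, mul_assoc]
  have h := (h1.map a).ext ((chain_coc φ).map b)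
    (fun g y => by rw [chain_inl, chain_inl, map_one, map_one])
    (fun j' y => by
      rw [chain_inr, chain_inr]
      by_cases h2 : (j', y) = (j, z)
      · obtain ⟨rfl, rfl⟩ := Prod.mk.inj h2
        simp [a, b]
      · have h3 : (j', y * q) ≠ (j, z * q) := by
          intro h4
          obtain ⟨h5, h6⟩ := Prod.mk.inj h4
          exact h2 (Prod.ext h5 (mul_right_cancel h6))
        simp [a, b, Finsupp.single_eq_of_ne (Ne.symm h2), Finsupp.single_eq_of_ne (Ne.symm h3)])
    u y
  exact congrArg Multiplicative.toAdd h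

/-- the translates of a nonzero chain are independent -/
theorem indep_of_ne [UniqueProds Q] (φ : Coprod G (FreeGroup J) →* Q)
    {u : Coprod G (FreeGroup J)} (hu : chain φ u (1 : Q) ≠ 1) :
    LinearIndependent ℤ fun y : Q => Multiplicative.toAdd (chain φ u y) := by
  classical
  obtain ⟨c, hc⟩ : ∃ c, c = Multiplicative.toAdd (chain φ u (1 : Q)) := ⟨_, rfl⟩
  have hc0 : c ≠ 0 := by
    intro h
    apply hu
    rw [hc] at h
    exact h
  have htr : ∀ (y : Q) (j : J) (z : Q),
      Multiplicative.toAdd (chain φ u y) (j, z) = c (j, z * y⁻¹) := by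
    intro y j z
    have h := chain_translate φ y u 1 j (z * y⁻¹)
    rw [one_mul, inv_mul_cancel_right] at h
    rw [h, hc]
  obtain ⟨⟨j, z₁⟩, hj⟩ := Finsupp.support_nonempty_iff.2 hc0
  rw [linearIndependent_iff]
  intro l hl
  by_contra hl0
  obtain ⟨z₀, hz₀, y₀, hy₀, h⟩ := UniqueProds.uniqueMul_of_nonempty
    (A := (c.support.filter fun p => p.1 = j).image Prod.snd) (B := l.support)
    ⟨z₁, Finset.mem_image.2 ⟨(j, z₁), Finset.mem_filter.2 ⟨hj, rfl⟩, rfl⟩⟩
    (Finsupp.support_nonempty_iff.2 hl0)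
  have hmem : ∀ z, z ∈ (c.support.filter fun p => p.1 = j).image Prod.snd ↔ c (j, z) ≠ 0 := by
    intro z
    simp
  have h1 := DFunLike.congr_fun hl (j, z₀ * y₀)
  rw [Finsupp.linearCombination_apply, Finsupp.sum, Finsupp.finsetSum_apply,
    Finset.sum_eq_single y₀] at h1
  · simp only [Finsupp.smul_apply, htr, mul_inv_cancel_right, smul_eq_mul,
      Finsupp.zero_apply, mul_eq_zero] at h1
    rcases h1 with h1 | h1
    · exact Finsupp.mem_support_iff.1 hy₀ h1
    · exact (hmem z₀).1 hz₀ h1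
  · intro y hy hne
    simp only [Finsupp.smul_apply, htr, smul_eq_mul, mul_eq_zero]
    right
    by_contra h2
    exact hne (h ((hmem _).2 h2) hy (by simp)).2
  · intro h2
    exact absurd hy₀ h2

/-- a nontrivial subgroup of a free group has a nontrivial homomorphism to the integers -/
theorem exists_char (N : Subgroup (FreeGroup J)) (hN : N ≠ ⊥) :
    ∃ (χ : N →* Multiplicative ℤ) (n : N), χ n ≠ 1 := by
  by_cases h : Nonempty (IsFreeGroup.Generators N)
  · obtain ⟨a⟩ := h
    refine ⟨IsFreeGroup.lift fun _ => Multiplicative.ofAdd 1, IsFreeGroup.of a, ?_⟩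
    rw [IsFreeGroup.lift_of]
    simp
  · exfalso
    apply hN
    rw [Subgroup.eq_bot_iff_forall]
    intro s hs
    have h1 : MonoidHom.id N = 1 := IsFreeGroup.ext_hom fun a => absurd ⟨a⟩ h
    exact congrArg Subtype.val (DFunLike.congr_fun h1 ⟨s, hs⟩)

/-- if the graph is not a tree, some closed path has a nonzero chain -/
theorem exists_chain_ne (ψ : FreeGroup J →* Q) (hψ : Function.Surjective ψ) (hk : ψ.ker ≠ ⊥) :
    ∃ n : Coprod G (FreeGroup J), ψ (Coprod.snd n) = 1 ∧
      chain (ψ.comp Coprod.snd) n (1 : Q) ≠ 1 := by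
  classical
  obtain ⟨χ, n, hn⟩ := exists_char ψ.ker hk
  obtain ⟨T, hT⟩ : ∃ T : Q → FreeGroup J, ∀ y, ψ (T y) = y⁻¹ :=
    ⟨fun y => Function.surjInv hψ y⁻¹, fun y => Function.surjInv_eq hψ _⟩
  have hmem : ∀ (s : FreeGroup J) (y : Q), T y * s * (T ((ψ s)⁻¹ * y))⁻¹ ∈ ψ.ker := by
    intro s y
    simp [MonoidHom.mem_ker, hT]
  let c : Coprod G (FreeGroup J) → Q → Multiplicative ℤ := fun u y =>
    χ ⟨_, hmem (Coprod.snd u) y⟩
  have hc : IsCoc (ψ.comp Coprod.snd) c := by
    intro u u' y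
    simp only [c, ← map_mul]
    congr 1
    apply Subtype.ext
    simp [mul_assoc]
  let f : Multiplicative (J × Q →₀ ℤ) →* Multiplicative ℤ :=
    AddMonoidHom.toMultiplicative (Finsupp.linearCombination ℤ (fun p : J × Q =>
      Multiplicative.toAdd (c (Coprod.inr (FreeGroup.of p.1)) p.2))).toAddMonoidHom
  have h := hc.ext ((chain_coc (ψ.comp Coprod.snd)).map f)
    (fun g y => by
      rw [chain_inl, map_one]
      simp only [c]
      rw [← map_one χ]
      congr 1
      apply Subtype.ext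
      simp)
    (fun j y => by
      rw [chain_inr]
      simp [f])
  have hn1 : ψ n = 1 := n.2
  refine ⟨Coprod.inr ((T 1)⁻¹ * n * T 1), by simp [hn1], fun h1 => hn ?_⟩
  have h2 := h (Coprod.inr ((T 1)⁻¹ * n * T 1)) 1
  rw [h1, map_one] at h2
  rw [← h2]
  simp only [c]
  congr 1
  apply Subtype.ext
  simp [hn1, mul_assoc]

/-- the Magnus extension -/
theorem magnus [UniqueProds Q] (ψ : FreeGroup J →* Q) (w : Coprod G (FreeGroup J))
    (hψw : ψ (Coprod.snd w) = 1) (h0 : chain (ψ.comp Coprod.snd) w (1 : Q) = 1) :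
    ∃ c : Con (FreeGroup J), c (Coprod.snd w) 1 ∧ UniqueProds c.Quotient ∧
      ∀ n : Coprod G (FreeGroup J), c (Coprod.snd n) 1 →
        chain (ψ.comp Coprod.snd) n (1 : Q) = 1 := by
  obtain ⟨Θ, hΘ0⟩ : ∃ Θ, Θ = (chain_coc (Y := Q) (ψ.comp (Coprod.snd (M := G)))).hom :=
    ⟨_, rfl⟩
  have hl : ∀ u y, (Θ u).left y = chain (ψ.comp Coprod.snd) u y := fun u y => by rw [hΘ0]; rfl
  have hr : ∀ u, (Θ u).right = ψ (Coprod.snd u) := fun u => by rw [hΘ0]; rfl
  have hΘ : ∀ u, Θ (Coprod.inr (Coprod.snd u)) = Θ u := by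
    have h : Θ.comp (Coprod.inr.comp Coprod.snd) = Θ := by
      apply Coprod.hom_ext
      · refine MonoidHom.ext fun g => ?_
        simp only [MonoidHom.comp_apply, Coprod.snd_apply_inl, map_one]
        apply SemidirectProduct.ext
        · funext y
          rw [hl, chain_inl]
          rfl
        · rw [hr]
          simp
      · refine MonoidHom.ext fun s => ?_
        simp
    exact fun u => DFunLike.congr_fun h u
  have hE := up_semidirect (mulAutArrow : Q →* MulAut (Q → Multiplicative (J × Q →₀ ℤ)))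
  have hw1 : Θ w = 1 := by
    apply SemidirectProduct.ext
    · funext y
      rw [hl]
      apply Multiplicative.toAdd.injective
      ext ⟨j, z⟩
      have h := chain_translate (ψ.comp Coprod.snd) y w 1 j (z * y⁻¹)
      rw [one_mul, inv_mul_cancel_right, h0] at h
      exact h
    · rw [hr]
      exact hψw
  refine ⟨Con.ker (Θ.comp Coprod.inr), ?_,
    UniqueProds.of_injective_mulHom (Con.kerLift (Θ.comp Coprod.inr)).toMulHom
      (Con.kerLift_injective _) hE, fun n h1 => ?_⟩
  · rw [Con.ker_rel, MonoidHom.comp_apply, hΘ, hw1, map_one]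
  · rw [Con.ker_rel, MonoidHom.comp_apply, hΘ, map_one] at h1
    rw [← hl, h1]
    rfl

/-- the largest quotient with unique products -/
theorem exists_quot (r : FreeGroup J) :
    ∃ (Q : Type w) (_ : Group Q) (_ : UniqueProds Q) (ψ : FreeGroup J →* Q),
      Function.Surjective ψ ∧ ψ r = 1 ∧
      ∀ c : Con (FreeGroup J), c r 1 → UniqueProds c.Quotient → ∀ s, ψ s = 1 → c s 1 := by
  let ι := {c : Con (FreeGroup J) // c r 1 ∧ UniqueProds c.Quotient}
  have hι : ∀ c : ι, UniqueProds c.1.Quotient := fun c => c.2.2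
  let Φ : FreeGroup J →* ∀ c : ι, c.1.Quotient := MonoidHom.pi fun c => c.1.mk'
  refine ⟨Φ.range, inferInstance,
    UniqueProds.of_injective_mulHom Φ.range.subtype.toMulHom Subtype.val_injective inferInstance,
    Φ.rangeRestrict, Φ.rangeRestrict_surjective, ?_, fun c h1 h2 s hs => ?_⟩
  · apply Subtype.ext
    funext c
    exact (Con.eq _).2 c.2.1
  · exact (Con.eq _).1 (congrFun (congrArg Subtype.val hs) ⟨c, h1, h2⟩)

/-- **One equation with nontrivial content.** -/
theorem injects_of_content (w : Coprod G (FreeGroup J)) (hw : Coprod.snd w ≠ 1) {I : Type v}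
    [Unique I] : Injects fun _ : I => w := by
  obtain ⟨Q, _, _, ψ, hψ, hψw, hmin⟩ := exists_quot (Coprod.snd w)
  have hne : chain (ψ.comp Coprod.snd) w (1 : Q) ≠ 1 := by
    intro h0
    obtain ⟨n, hn1, hn2⟩ := exists_chain_ne (G := G) ψ hψ (by
      intro h
      apply hw
      rw [← Subgroup.mem_bot, ← h]
      exact hψw)
    obtain ⟨c, h1, h2, h3⟩ := magnus ψ w hψw h0
    exact hn2 (h3 n (hmin c h1 h2 _ hn1))
  refine injects_of_chain (Y := Q) (ψ.comp Coprod.snd) _ (fun _ => hψw) ?_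
  exact (indep_of_ne _ hne).comp Prod.snd (Equiv.uniqueProd _ I).injective

end Vale.Agent.N174
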