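import Vale.Agent.N174.Inf

/-!
P174: systems whose lift to a covering is nonsingular.
-/

namespace Vale.Agent.N174

open Vale.Agent.P174 Monoid

universe u v w x

variable {G : Type u} [Group G] {I : Type v} {J : Type w} {Q : Type*} [Group Q] {Y : Type x}
  [MulAction Q Y] {H : Type*} [Group H]

theorem arrow_apply (q : Q) (f : Y → H) (y : Y) :
    (mulAutArrow : Q →* MulAut (Y → H)) q f y = f (q⁻¹ • y) := rfl

/-- coefficients act diagonally -/
def cst (Y : Type x) [MulAction Q Y] (φ : Coprod G (FreeGroup J) →* Q) (ι : G →* H) :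
    G →* (Y → H) ⋊[mulAutArrow] Q :=
  MonoidHom.mk' (fun g => ⟨fun _ => ι g, φ (Coprod.inl g)⟩) (by
    intro a b
    apply SemidirectProduct.ext
    · funext y
      exact map_mul ι a b
    · simp)

/-- the homomorphism to the wreath product -/
def wr (φ : Coprod G (FreeGroup J) →* Q) (ι : G →* H) (h : J × Y → H) :
    Coprod G (FreeGroup J) →* (Y → H) ⋊[mulAutArrow] Q :=
  Coprod.lift (cst Y φ ι)
    (FreeGroup.lift fun j => ⟨fun y => h (j, y), φ (Coprod.inr (FreeGroup.of j))⟩)

theorem wr_inl (φ : Coprod G (FreeGroup J) →* Q) (ι : G →* H) (h : J × Y → H) (g : G) (y : Y) :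
    (wr φ ι h (Coprod.inl g)).left y = ι g := by
  simp [wr, cst]

theorem wr_inr (φ : Coprod G (FreeGroup J) →* Q) (ι : G →* H) (h : J × Y → H) (j : J) (y : Y) :
    (wr φ ι h (Coprod.inr (FreeGroup.of j))).left y = h (j, y) := by
  simp [wr]

theorem wr_right (φ : Coprod G (FreeGroup J) →* Q) (ι : G →* H) (h : J × Y → H)
    (u : Coprod G (FreeGroup J)) : (wr φ ι h u).right = φ u := by
  have h1 : SemidirectProduct.rightHom.comp (wr φ ι h) = φ := by
    apply Coprod.hom_ext
    · ext g; simp [wr, cst]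
    · ext j; simp [wr]
  exact DFunLike.congr_fun h1 u

/-- the cocycle rule -/
def IsCoc (φ : Coprod G (FreeGroup J) →* Q) (c : Coprod G (FreeGroup J) → Y → H) : Prop :=
  ∀ u u' y, c (u * u') y = c u y * c u' ((φ u)⁻¹ • y)

theorem wr_coc (φ : Coprod G (FreeGroup J) →* Q) (ι : G →* H) (h : J × Y → H) :
    IsCoc φ fun u => (wr φ ι h u).left := by
  intro u u' y
  simp only [map_mul, SemidirectProduct.mul_left, Pi.mul_apply, arrow_apply, wr_right]

theorem IsCoc.map {φ : Coprod G (FreeGroup J) →* Q} {c : Coprod G (FreeGroup J) → Y → H}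
    (hc : IsCoc φ c) {K : Type*} [Group K] (f : H →* K) : IsCoc φ fun u y => f (c u y) := by
  intro u u' y
  simp only [hc u u' y, map_mul]

/-- a cocycle as a homomorphism -/
def IsCoc.hom {φ : Coprod G (FreeGroup J) →* Q} {c : Coprod G (FreeGroup J) → Y → H}
    (hc : IsCoc φ c) : Coprod G (FreeGroup J) →* (Y → H) ⋊[mulAutArrow] Q :=
  MonoidHom.mk' (fun u => ⟨c u, φ u⟩) (by
    intro a b
    apply SemidirectProduct.ext
    · funext y
      exact hc a b y
    · simp)

theorem IsCoc.ext {φ : Coprod G (FreeGroup J) →* Q} {c c' : Coprod G (FreeGroup J) → Y → H}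
    (hc : IsCoc φ c) (hc' : IsCoc φ c')
    (h1 : ∀ g y, c (Coprod.inl g) y = c' (Coprod.inl g) y)
    (h2 : ∀ j y, c (Coprod.inr (FreeGroup.of j)) y = c' (Coprod.inr (FreeGroup.of j)) y)
    (u : Coprod G (FreeGroup J)) (y : Y) : c u y = c' u y := by
  have h : hc.hom = hc'.hom := by
    apply Coprod.hom_ext
    · refine MonoidHom.ext fun g => SemidirectProduct.ext (funext (h1 g)) rfl
    · refine FreeGroup.ext_hom _ _ fun j => SemidirectProduct.ext (funext (h2 j)) rfl
  exact congrFun (congrArg SemidirectProduct.left (DFunLike.congr_fun h u)) y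

/-- the chain of the lifted path -/
noncomputable def chain (φ : Coprod G (FreeGroup J) →* Q) (u : Coprod G (FreeGroup J)) (y : Y) :
    Multiplicative (J × Y →₀ ℤ) :=
  (wr φ 1 (fun p => Multiplicative.ofAdd (Finsupp.single p 1)) u).left y

theorem chain_coc (φ : Coprod G (FreeGroup J) →* Q) : IsCoc φ (chain (Y := Y) φ) :=
  wr_coc φ _ _

theorem chain_inl (φ : Coprod G (FreeGroup J) →* Q) (g : G) (y : Y) :
    chain φ (Coprod.inl g) y = 1 := wr_inl φ _ _ g y

theorem chain_inr (φ : Coprod G (FreeGroup J) →* Q) (j : J) (y : Y) :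
    chain φ (Coprod.inr (FreeGroup.of j)) y = Multiplicative.ofAdd (Finsupp.single (j, y) 1) :=
  wr_inr φ _ _ j y

/-- **Systems with a nonsingular lift.** -/
theorem injects_of_chain [Nonempty Y] (φ : Coprod G (FreeGroup J) →* Q)
    (w : I → Coprod G (FreeGroup J)) (hφ : ∀ i, φ (w i) = 1)
    (hind : LinearIndependent ℤ fun p : I × Y => Multiplicative.toAdd (chain φ (w p.1) p.2)) :
    Injects w := by
  let L : Coprod G (FreeGroup J) → Y → Coprod G (FreeGroup (J × Y)) := fun u =>
    (wr φ Coprod.inl (fun p => Coprod.inr (FreeGroup.of p)) u).left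
  have hL : IsCoc φ L := wr_coc φ _ _
  have hL1 : ∀ g y, L (Coprod.inl g) y = Coprod.inl g := fun g y => wr_inl φ _ _ g y
  have hL2 : ∀ j y, L (Coprod.inr (FreeGroup.of j)) y = Coprod.inr (FreeGroup.of (j, y)) :=
    fun j y => wr_inr φ _ _ j y
  let W : I × Y → Coprod G (FreeGroup (J × Y)) := fun p => L (w p.1) p.2
  have hexp : ∀ u y, expV G (J × Y) (L u y) = chain φ u y :=
    (hL.map (expV G (J × Y))).ext (chain_coc φ)
      (fun g y => by rw [hL1, chain_inl]; simp [expV])
      (fun j y => by rw [hL2, chain_inr]; simp [expV])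
  have hW : Injects W := injects_of_indep W (by simpa only [W, hexp] using hind)
  rw [injects_iff] at hW ⊢
  intro g hg
  apply hW
  let π := QuotientGroup.mk' (Subgroup.normalClosure (Set.range W))
  have h1 := kill_of_hom (hL.map π).hom (s := Set.range w) (by
    rintro _ ⟨i, rfl⟩
    apply SemidirectProduct.ext
    · funext y
      exact (QuotientGroup.eq_one_iff _).2 (Subgroup.subset_normalClosure ⟨(i, y), rfl⟩)
    · exact hφ i) hg
  have h2 := congrFun (congrArg SemidirectProduct.left h1) (Classical.arbitrary Y)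
  have h3 : π (L (Coprod.inl g) (Classical.arbitrary Y)) = 1 := h2
  rw [hL1] at h3
  exact (QuotientGroup.eq_one_iff _).1 h3

theorem isPathChain_chain (φ : Coprod G (FreeGroup J) →* Equiv.Perm Y) :
    IsPathChain φ fun u y => Multiplicative.toAdd (chain φ u y) :=
  ⟨fun u u' y => congrArg Multiplicative.toAdd (chain_coc φ u u' y),
    fun g y => congrArg Multiplicative.toAdd (chain_inl φ g y),
    fun j y => congrArg Multiplicative.toAdd (chain_inr φ j y)⟩

theorem IsPathChain.eq {φ : Coprod G (FreeGroup J) →* Equiv.Perm Y}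
    {D : Coprod G (FreeGroup J) → Y → (J × Y →₀ ℤ)} (hD : IsPathChain φ D) :
    D = fun u y => Multiplicative.toAdd (chain φ u y) := by
  have h : IsCoc φ fun u y => Multiplicative.ofAdd (D u y) := fun u u' y =>
    congrArg Multiplicative.ofAdd (hD.1 u u' y)
  funext u y
  exact congrArg Multiplicative.toAdd (h.ext (chain_coc φ)
    (fun g y => by rw [chain_inl, hD.2.1]; rfl)
    (fun j y => by rw [chain_inr, hD.2.2]) u y)

theorem existsUnique_pathChain (φ : Coprod G (FreeGroup J) →* Equiv.Perm Y) :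
    ∃! D, IsPathChain φ D :=
  ⟨_, isPathChain_chain φ, fun _ hD => hD.eq⟩

theorem injects_of_cover [Nonempty Y] (φ : Coprod G (FreeGroup J) →* Equiv.Perm Y)
    (D : Coprod G (FreeGroup J) → Y → (J × Y →₀ ℤ)) (hD : IsPathChain φ D)
    (w : I → Coprod G (FreeGroup J)) (hφ : ∀ i, φ (w i) = 1)
    (hind : LinearIndependent ℤ fun p : I × Y => D (w p.1) p.2) : Injects w := by
  rw [hD.eq] at hind
  exact injects_of_chain φ w hφ hind

end Vale.Agent.N174
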