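import Mathlib

/-!
P174: systems of equations with arbitrary sets of equations and unknowns; lifts of words to a
covering graph.
-/

namespace Vale.Agent.N174

universe u v s t

/-- The canonical homomorphism `G → (G * F(J)) / ⟨⟨w_i : i ∈ I⟩⟩` is injective, that is, the
system `w_i = 1` is solvable over `G`. -/
def Injects {G : Type u} [Group G] {I : Type v} {J : Type s}
    (w : I → Monoid.Coprod G (FreeGroup J)) : Prop :=
  Function.Injective fun g : G =>
    ((Monoid.Coprod.inl g : Monoid.Coprod G (FreeGroup J)) :
      Monoid.Coprod G (FreeGroup J) ⧸ Subgroup.normalClosure (Set.range w))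

/-- An action `φ` of `G * F(J)` on `Y` gives a graph: its vertices are the points of `Y`, a word
`a` read from left to right leads from `y` to `y · a = φ(a)⁻¹ y`, and the edge `(j, y)` goes from
`y` to `y · x_j`.  `D a y` is the cellular 1-chain (the signed count of the edges) of the path
that starts at `y` and reads `a`; coefficients from `G` traverse no edge. -/
def IsPathChain {G : Type u} [Group G] {J : Type s} {Y : Type t}
    (φ : Monoid.Coprod G (FreeGroup J) →* Equiv.Perm Y)
    (D : Monoid.Coprod G (FreeGroup J) → Y → (J × Y →₀ ℤ)) : Prop :=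
  (∀ a b y, D (a * b) y = D a y + D b ((φ a)⁻¹ y)) ∧
    (∀ g y, D (Monoid.Coprod.inl g) y = 0) ∧
    ∀ j y, D (Monoid.Coprod.inr (FreeGroup.of j)) y = Finsupp.single (j, y) 1

/-- `P` has a linear order which is invariant under left multiplication. -/
def LeftOrderable (P : Type v) [Group P] : Prop :=
  ∃ r : LinearOrder P, ∀ a b c : P, r.lt b c → r.lt (a * b) (a * c)

end Vale.Agent.N174
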