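import Vale.Agent.P174.Bdl.D
import Vale.Agent.P174.H717.Fin
import Vale.Agent.P174.T2.Full
import Vale.Agent.N174.Defs

/-!
P174: infinite nonsingular systems.
-/

namespace Vale.Agent.N174

open Vale.Agent.P174 Monoid

universe u v w

variable {G : Type u} [Group G] {I : Type v} {J : Type w}

theorem howie (m n : ℕ) (w : Fin m → Words G n) (hw : FullRank ℚ w) : SolvableOver w :=
  H717.howie_of_sol (fun k => T2.solS (Fin k)) G m n w hw

theorem injects_iff (w : I → Coprod G (FreeGroup J)) :
    Injects w ↔ ∀ g : G, (Coprod.inl g : Coprod G (FreeGroup J)) ∈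
      Subgroup.normalClosure (Set.range w) → g = 1 := by
  have h := injective_iff_map_eq_one
    ((QuotientGroup.mk' (Subgroup.normalClosure (Set.range w))).comp
      (Coprod.inl : G →* Coprod G (FreeGroup J)))
  refine Iff.trans h (forall_congr' fun g => ?_)
  rw [MonoidHom.comp_apply, QuotientGroup.mk'_apply, QuotientGroup.eq_one_iff]

theorem kill_of_hom {H : Type*} [Group H] {K : Type*} [Group K] (f : H →* K) {s : Set H}
    (hs : ∀ x ∈ s, f x = 1) {z : H} (hz : z ∈ Subgroup.normalClosure s) : f z = 1 := by
  have h : Subgroup.normalClosure s ≤ f.ker :=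
    Subgroup.normalClosure_le_normal fun x hx => hs x hx
  exact h hz

theorem solvable_iff {m n : ℕ} (w : Fin m → Words G n) : SolvableOver w ↔ Injects w := by
  rw [injects_iff]
  constructor
  · rintro ⟨H, _, ι, h, hι, hw⟩ g hg
    have h1 := kill_of_hom (Coprod.lift ι (FreeGroup.lift h))
      (s := Set.range w) (by rintro _ ⟨i, rfl⟩; exact hw i) hg
    rw [Coprod.lift_apply_inl] at h1
    exact hι (by rw [h1, map_one])
  · intro h
    refine ⟨Words G n ⧸ Subgroup.normalClosure (Set.range w), inferInstance,
      (QuotientGroup.mk' (Subgroup.normalClosure (Set.range w))).comp Coprod.inl,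
      fun j => QuotientGroup.mk' (Subgroup.normalClosure (Set.range w))
        (Coprod.inr (FreeGroup.of j)), ?_, ?_⟩
    · rw [injective_iff_map_eq_one]
      intro g hg
      exact h g ((QuotientGroup.eq_one_iff _).1 hg)
    · intro i
      have h1 : Coprod.lift
          ((QuotientGroup.mk' (Subgroup.normalClosure (Set.range w))).comp Coprod.inl)
          (FreeGroup.lift fun j => QuotientGroup.mk' (Subgroup.normalClosure (Set.range w))
            (Coprod.inr (FreeGroup.of j))) =
          QuotientGroup.mk' (Subgroup.normalClosure (Set.range w)) := by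
        apply Coprod.hom_ext
        · ext g; simp
        · ext j; simp
      rw [h1]
      exact (QuotientGroup.eq_one_iff _).2 (Subgroup.subset_normalClosure ⟨i, rfl⟩)

/-- a consequence of a system is a consequence of a finite subsystem -/
theorem exists_finset {H : Type*} [Group H] (w : I → H) {z : H}
    (hz : z ∈ Subgroup.normalClosure (Set.range w)) :
    ∃ S : Finset I, z ∈ Subgroup.normalClosure (w '' (S : Set I)) := by
  classical
  have hmono : ∀ S T : Finset I, S ⊆ T → Subgroup.normalClosure (w '' (S : Set I)) ≤
      Subgroup.normalClosure (w '' (T : Set I)) := fun S T h =>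
    Subgroup.normalClosure_mono (Set.image_mono (Finset.coe_subset.2 h))
  let K : Subgroup H :=
    { carrier := {z | ∃ S : Finset I, z ∈ Subgroup.normalClosure (w '' (S : Set I))}
      one_mem' := ⟨∅, one_mem _⟩
      mul_mem' := by
        rintro a b ⟨S, hS⟩ ⟨T, hT⟩
        exact ⟨S ∪ T, mul_mem (hmono _ _ Finset.subset_union_left hS)
          (hmono _ _ Finset.subset_union_right hT)⟩
      inv_mem' := by
        rintro a ⟨S, hS⟩
        exact ⟨S, inv_mem hS⟩ }
  have hK : K.Normal := ⟨by
    rintro a ⟨S, hS⟩ g
    exact ⟨S, Subgroup.normalClosure_normal.conj_mem _ hS g⟩⟩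
  have h : Subgroup.normalClosure (Set.range w) ≤ K := by
    apply Subgroup.normalClosure_le_normal
    rintro _ ⟨i, rfl⟩
    exact ⟨{i}, Subgroup.subset_normalClosure ⟨i, by simp, rfl⟩⟩
  exact h hz

/-- the vector of exponent sums -/
noncomputable def expV (G : Type u) [Group G] (J : Type w) :
    Coprod G (FreeGroup J) →* Multiplicative (J →₀ ℤ) :=
  Coprod.lift 1 (FreeGroup.lift fun j => Multiplicative.ofAdd (Finsupp.single j 1))

open Classical in
/-- the retraction that keeps only the unknowns in the range of `e` -/
noncomputable def keep (G : Type u) [Group G] {n : ℕ} (e : Fin n → J) :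
    Coprod G (FreeGroup J) →* Words G n :=
  Coprod.lift Coprod.inl (FreeGroup.lift fun j =>
    if h : ∃ k, e k = j then Coprod.inr (FreeGroup.of h.choose) else 1)

theorem expSum_keep {n : ℕ} {e : Fin n → J} (he : Function.Injective e)
    (u : Coprod G (FreeGroup J)) (k : Fin n) :
    Multiplicative.toAdd (expSum G n (keep G e u)) k =
      Multiplicative.toAdd (expV G J u) (e k) := by
  classical
  let a : Multiplicative (Fin n → ℤ) →* Multiplicative ℤ :=
    AddMonoidHom.toMultiplicative (Pi.evalAddMonoidHom (fun _ : Fin n => ℤ) k)
  let b : Multiplicative (J →₀ ℤ) →* Multiplicative ℤ :=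
    AddMonoidHom.toMultiplicative (Finsupp.applyAddHom (e k))
  have h : a.comp ((expSum G n).comp (keep G e)) = b.comp (expV G J) := by
    apply Coprod.hom_ext
    · ext g
      simp [keep, expSum, expV]
    · ext j
      by_cases hj : ∃ k', e k' = j
      · have h1 := hj.choose_spec
        simp only [MonoidHom.comp_apply, keep, expV, expSum, Coprod.lift_apply_inr,
          FreeGroup.lift_apply_of, dif_pos hj]
        generalize hj.choose = k' at h1
        subst h1
        by_cases h2 : k = k'
        · subst h2
          simp [a, b]
        · have h3 : e k ≠ e k' := fun h => h2 (he h)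
          simp [a, b, h2, h3]
      · have h3 : j ≠ e k := fun h => hj ⟨k, h.symm⟩
        simp only [MonoidHom.comp_apply, keep, expV, expSum, Coprod.lift_apply_inr,
          FreeGroup.lift_apply_of, dif_neg hj, map_one]
        simp [b, h3]
  exact congrArg Multiplicative.toAdd (DFunLike.congr_fun h u)

/-- **Infinite nonsingular systems.** -/
theorem injects_of_indep (w : I → Coprod G (FreeGroup J))
    (hw : LinearIndependent ℤ fun i => Multiplicative.toAdd (expV G J (w i))) : Injects w := by
  classical
  rw [injects_iff]
  intro g hg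
  obtain ⟨S, hS⟩ := exists_finset w hg
  obtain ⟨T, hT⟩ : ∃ T : Finset J,
      T = S.biUnion fun i => (Multiplicative.toAdd (expV G J (w i))).support := ⟨_, rfl⟩
  let d : Fin S.card → I := fun k => (S.equivFin.symm k : I)
  let e : Fin T.card → J := fun k => (T.equivFin.symm k : J)
  have hd : Function.Injective d := Subtype.val_injective.comp S.equivFin.symm.injective
  have he : Function.Injective e := Subtype.val_injective.comp T.equivFin.symm.injective
  let w' : Fin S.card → Words G T.card := fun k => keep G e (w (d k))
  have hrank : FullRank ℚ w' := by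
    have h1 : LinearIndependent ℤ
        ((expMatrix w').map (fun a : ℤ => (a : ℚ))).row := by
      have h2 := hw.comp d hd
      rw [Fintype.linearIndependent_iff] at h2 ⊢
      intro c hc
      apply h2 c
      ext j
      by_cases hj : j ∈ T
      · have h3 := congrFun hc (T.equivFin ⟨j, hj⟩)
        have h4 : e (T.equivFin ⟨j, hj⟩) = j := by simp [e]
        have h5 : ∀ k, ((expMatrix w').map (fun a : ℤ => (a : ℚ))).row k (T.equivFin ⟨j, hj⟩) =
            (Multiplicative.toAdd (expV G J (w (d k))) j : ℤ) := by
          intro k
          show ((Multiplicative.toAdd (expSum G _ (keep G e (w (d k)))) _ : ℤ) : ℚ) = _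
          rw [expSum_keep he, h4]
        simp only [Finset.sum_apply, Pi.smul_apply, h5, Pi.zero_apply] at h3
        simp only [zsmul_eq_mul] at h3
        simp only [Finsupp.finsetSum_apply, Function.comp_apply, Finsupp.smul_apply,
          smul_eq_mul, Finsupp.zero_apply]
        exact_mod_cast h3
      · simp only [Finsupp.finsetSum_apply, Function.comp_apply, Finsupp.smul_apply,
          smul_eq_mul, Finsupp.zero_apply]
        refine Finset.sum_eq_zero fun k _ => ?_
        have h3 : Multiplicative.toAdd (expV G J (w (d k))) j = 0 := by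
          by_contra h4
          apply hj
          rw [hT, Finset.mem_biUnion]
          exact ⟨d k, (S.equivFin.symm k).2, Finsupp.mem_support_iff.2 h4⟩
        rw [h3, mul_zero]
    rw [LinearIndependent.iff_fractionRing ℤ ℚ] at h1
    have h2 := h1.rank_matrix
    rw [Fintype.card_fin] at h2
    exact h2
  have hsol := (injects_iff w').1 ((solvable_iff w').1 (howie _ _ w' hrank)) g
  apply hsol
  have h1 : (Subgroup.normalClosure (w '' (S : Set I))).map (keep G e) ≤
      Subgroup.normalClosure (Set.range w') := by
    rw [Subgroup.map_le_iff_le_comap]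
    apply Subgroup.normalClosure_le_normal
    rintro _ ⟨i, hi, rfl⟩
    refine Subgroup.subset_normalClosure ⟨S.equivFin ⟨i, hi⟩, ?_⟩
    simp [w', d]
  have h2 := h1 ⟨_, hS, rfl⟩
  simpa [keep] using h2

end Vale.Agent.N174
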