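import Vale.Agent.P174.LO.Local

/-!
P174: planar diagrams with labels in the quotient group; zipping.
-/

namespace Vale.Agent.N174.Lab

open Vale.Agent.P174.LO

universe u v w

variable {G : Type u} [Group G] {ι : Type v} {ℓ : ℕ} [NeZero ℓ] {Γ : Type w} [Group Γ]

/-- the label of a position -/
def ev (π : XX G ι →* Γ) (μ : ℕ → Γ) : Ps G → Γ
  | none => 1
  | some (v, g) => μ v * π (cX ι g)

/-- the vertex of a position -/
def vx : Ps G → ℕ
  | none => 0
  | some (v, _) => v

theorem vx_pm (s : Ps G) (g : G) : vx (pm s g) = vx s := by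
  rcases s with _ | ⟨v, k⟩ <;> rfl

theorem pm_ne {s : Ps G} (h : s ≠ none) (g : G) : pm s g ≠ none := by
  rcases s with _ | ⟨v, k⟩
  · exact absurd rfl h
  · simp

theorem ev_pm (π : XX G ι →* Γ) (μ : ℕ → Γ) {s : Ps G} (h : s ≠ none) (g : G) :
    ev π μ (pm s g) = ev π μ s * π (cX ι g) := by
  rcases s with _ | ⟨v, k⟩
  · exact absurd rfl h
  · simp [ev, mul_assoc]

omit [Group G] in
theorem at_vx {s : Ps G} (h : s ≠ none) : At (vx s) s := by
  rcases s with _ | ⟨v, k⟩
  · exact absurd rfl h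
  · exact ⟨k, rfl⟩

omit [Group G] in
theorem vx_of_at {s : Ps G} {v : ℕ} (h : At v s) : vx s = v := by
  obtain ⟨k, rfl⟩ := h
  rfl

theorem ev_congr (π : XX G ι →* Γ) {μ μ' : ℕ → Γ} {s : Ps G} (h : ∀ v, At v s → μ' v = μ v) :
    ev π μ' s = ev π μ s := by
  rcases s with _ | ⟨v, k⟩
  · rfl
  · simp only [ev]
    rw [h v ⟨k, rfl⟩]

theorem pth_conn {D : Type*} {σ : D → D} {p : D → Ps G} {T : List (D ⊕ G)} {s e : Ps G}
    (h : Pth σ p s T e) {S : Set ℕ}
    (hS : ∀ d, Sum.inl d ∈ T → (vx (p (σ d)) ∈ S ↔ vx (p d) ∈ S)) (hs : vx s ∈ S) :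
    vx e ∈ S := by
  induction T generalizing s with
  | nil =>
    simp only [pth_nil] at h
    rwa [← h]
  | cons t T ih =>
    have ih' : ∀ {s : Ps G}, Pth σ p s T e → vx s ∈ S → vx e ∈ S := fun h1 h2 =>
      ih h1 (fun d hd => hS d (List.mem_cons_of_mem _ hd)) h2
    rcases t with d | g
    · simp only [pth_inl] at h
      refine ih' h.2 ((hS d (by simp)).1 ?_)
      rwa [h.1]
    · simp only [pth_inr] at h
      exact ih' h (by rwa [vx_pm])

theorem pth_ev (π : XX G ι →* Γ) (μ : ℕ → Γ) {D : Type*} (lb : D → ι × Bool) {σ : D → D}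
    {p : D → Ps G} {T : List (D ⊕ G)} {s e : Ps G} (h : Pth σ p s T e) (hs : s ≠ none)
    (hT : ∀ d, Sum.inl d ∈ T → p d ≠ none ∧
      ev π μ (p (σ d)) * π (lX G (lb d)) = ev π μ (p d)) :
    e ≠ none ∧ ev π μ e = ev π μ s * π (tval lb T) := by
  induction T generalizing s with
  | nil =>
    simp only [pth_nil] at h
    subst h
    exact ⟨hs, by simp⟩
  | cons t T ih =>
    have ih' : ∀ {s : Ps G}, Pth σ p s T e → s ≠ none →
        e ≠ none ∧ ev π μ e = ev π μ s * π (tval lb T) := fun h1 h2 =>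
      ih h1 h2 (fun d hd => hT d (List.mem_cons_of_mem _ hd))
    rcases t with d | g
    · simp only [pth_inl] at h
      obtain ⟨h1, h2⟩ := hT d (by simp)
      obtain ⟨h3, h4⟩ := ih' h.2 h1
      refine ⟨h3, ?_⟩
      rw [h4, ← h2, h.1, tval_inl, map_mul, mul_assoc]
    · simp only [pth_inr] at h
      obtain ⟨h3, h4⟩ := ih' h (pm_ne hs g)
      refine ⟨h3, ?_⟩
      rw [h4, ev_pm π μ hs, tval_inr, map_mul, mul_assoc]

/-- all darts are connected to the base point -/
def Conn (A : Finset Fc) (T : List (Dt ι ℓ ⊕ G)) (σ : Dt ι ℓ → Dt ι ℓ) (p : Dt ι ℓ → Ps G)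
    (b : Ps G) : Prop :=
  ∀ S : Set ℕ, vx b ∈ S → (∀ d, Live A T d → (vx (p (σ d)) ∈ S ↔ vx (p d) ∈ S)) →
    ∀ d, Live A T d → vx (p d) ∈ S

/-- a labelled state -/
structure Lb (π : XX G ι →* Γ) (x : ZMod ℓ → ι × Bool) (A : Finset Fc) (T : List (Dt ι ℓ ⊕ G))
    (σ : Dt ι ℓ → Dt ι ℓ) (p : Dt ι ℓ → Ps G) (b : Ps G) (V : Finset ℕ) (μ : ℕ → Γ) : Prop where
  sb : b ≠ none
  sp : ∀ d, Live A T d → p d ≠ none
  edge : ∀ d, Live A T d → ev π μ (p (σ d)) * π (lX G (lab x d)) = ev π μ (p d)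
  conn : Conn A T σ p b ∨ ℓ * A.card + (drt T).length + 4 ≤ 2 * V.card + 2 * A.card

/-- the label of the start of the letter in a slot of a face -/
def sl (π : XX G ι →* Γ) (x : ZMod ℓ → ι × Bool) (p : Dt ι ℓ → Ps G) (μ : ℕ → Γ) (a : Fc)
    (i : ZMod ℓ) : Γ :=
  if a.2 then ev π μ (p (.inl (a, i))) * (π (lX G (x i)))⁻¹ else ev π μ (p (.inl (a, i)))

/-- the class of a diagram -/
noncomputable def cl (π : XX G ι →* Γ) (x : ZMod ℓ → ι × Bool) (A : Finset Fc)
    (p : Dt ι ℓ → Ps G) (μ : ℕ → Γ) : Γ →₀ ℤ :=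
  ∑ a ∈ A, Finsupp.single (sl π x p μ a 0) (if a.2 then -1 else 1)

omit [NeZero ℓ] in
theorem cl_congr (π : XX G ι →* Γ) (x : ZMod ℓ → ι × Bool) {A : Finset Fc}
    {p p' : Dt ι ℓ → Ps G} {μ μ' : ℕ → Γ}
    (h : ∀ a ∈ A, ev π μ' (p' (.inl (a, 0))) = ev π μ (p (.inl (a, 0)))) :
    cl π x A p' μ' = cl π x A p μ := by
  refine Finset.sum_congr rfl fun a ha => ?_
  simp only [sl, h a ha]

/-- identification of two positions with the same label -/
theorem exists_phiL {π : XX G ι →* Γ} (hπ : ∀ g h : G, π (cX ι g) = π (cX ι h) → g = h)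
    (μ : ℕ → Γ) (s t : Ps G) (V : Finset ℕ) (hs : ∀ v, At v s → v ∈ V)
    (ht : ∀ v, At v t → v ∈ V) (hs0 : s ≠ none) (ht0 : t ≠ none) (hst : ev π μ s = ev π μ t) :
    ∃ (Φ : Ps G → Ps G) (V' : Finset ℕ), (∀ q g, Φ (pm q g) = pm (Φ q) g) ∧ Φ s = Φ t ∧
      V' ⊆ V ∧ V.card ≤ V'.card + 1 ∧ (∀ v ∈ V', ∀ q, At v q → At v (Φ q)) ∧
      (∀ q, (∀ v, At v q → v ∈ V) → ∀ v, At v (Φ q) → v ∈ V') ∧
      (∀ q, q ≠ none → Φ q ≠ none ∧ ev π μ (Φ q) = ev π μ q) ∧
      ∃ f : ℕ → ℕ, ∀ q, q ≠ none → vx (Φ q) = f (vx q) := by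
  classical
  by_cases hst' : s = t
  · exact ⟨id, V, fun _ _ => rfl, by rw [hst'], subset_rfl, by omega, fun _ _ _ h => h,
      fun q hq v hv => hq v hv, fun q hq => ⟨hq, rfl⟩, id, fun _ _ => rfl⟩
  rcases s with _ | ⟨v, g⟩
  · exact absurd rfl hs0
  rcases t with _ | ⟨v', g'⟩
  · exact absurd rfl ht0
  simp only [ev] at hst
  have hv : v ≠ v' := by
    rintro rfl
    exact hst' (by rw [hπ g g' (mul_left_cancel hst)])
  refine ⟨fun q => match q with
    | none => none
    | some (z, k) => if z = v' then some (v, g * g'⁻¹ * k) else some (z, k), V.erase v',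
    ?_, ?_, Finset.erase_subset _ _, ?_, ?_, ?_, ?_, fun z => if z = v' then v else z, ?_⟩
  · rintro (_ | ⟨z, k⟩) h
    · rfl
    · simp only [pm_some]
      split_ifs <;> simp [mul_assoc]
  · simp [hv]
  · rw [Finset.card_erase_of_mem (ht v' ⟨g', rfl⟩)]
    omega
  · rintro z hz q ⟨k, rfl⟩
    have : z ≠ v' := Finset.ne_of_mem_erase hz
    exact ⟨k, by simp [this]⟩
  · rintro (_ | ⟨z', k'⟩) hq z ⟨k, hk⟩
    · simp at hk
    · by_cases h : z' = v'
      · simp only [h, if_true, Option.some.injEq, Prod.mk.injEq] at hk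
        rw [← hk.1]
        exact Finset.mem_erase.2 ⟨hv, hs v ⟨g, rfl⟩⟩
      · simp only [h, if_false, Option.some.injEq, Prod.mk.injEq] at hk
        rw [← hk.1]
        exact Finset.mem_erase.2 ⟨h, hq z' ⟨k', rfl⟩⟩
  · rintro (_ | ⟨z, k⟩) hq
    · exact absurd rfl hq
    · by_cases h : z = v'
      · subst h
        simp only [if_true, ev, ne_eq, reduceCtorEq, not_false_eq_true, true_and, cX_mul, cX_inv,
          map_mul, map_inv]
        rw [← mul_assoc, ← mul_assoc, hst]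
        group
      · simp [h]
  · rintro (_ | ⟨z, k⟩) hq
    · exact absurd rfl hq
    · by_cases h : z = v' <;> simp [h, vx]

variable {π : XX G ι →* Γ} {x : ZMod ℓ → ι × Bool} {c : ZMod ℓ → G}
  {A : Finset Fc} {T : List (Dt ι ℓ ⊕ G)} {σ : Dt ι ℓ → Dt ι ℓ} {p : Dt ι ℓ → Ps G}
  {b : Ps G} {V : Finset ℕ} {μ : ℕ → Γ}

omit [NeZero ℓ] in
theorem Lb.coef {T₁ T₂ : List (Dt ι ℓ ⊕ G)} {Gs : List G} (Hs : List G)
    (h : Lb π x A (T₁ ++ (Gs.map Sum.inr ++ T₂)) σ p b V μ) :
    Lb π x A (T₁ ++ (Hs.map Sum.inr ++ T₂)) σ p b V μ := by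
  have hd : drt (T₁ ++ (Hs.map Sum.inr ++ T₂)) = drt (T₁ ++ (Gs.map Sum.inr ++ T₂)) := by
    simp
  have hL : ∀ d, Live A (T₁ ++ (Hs.map Sum.inr ++ T₂)) d ↔
      Live A (T₁ ++ (Gs.map Sum.inr ++ T₂)) d := by
    intro d
    rw [Live, Live, ← mem_drt, ← mem_drt, hd]
  refine ⟨h.sb, fun d hd => h.sp d ((hL d).1 hd), fun d hd => h.edge d ((hL d).1 hd), ?_⟩
  rcases h.conn with h1 | h1
  · exact Or.inl fun S hS h2 d hd => h1 S hS (fun f hf => h2 f ((hL f).2 hf)) d ((hL d).1 hd)
  · exact Or.inr (by rwa [hd])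

omit [NeZero ℓ] in
/-- zipping two adjacent outer darts -/
theorem zipL (hπ : ∀ g h : G, π (cX ι g) = π (cX ι h) → g = h)
    {T₁ T₂ : List (Dt ι ℓ ⊕ G)} {d d' : Dt ι ℓ}
    (h : St x c A (T₁ ++ .inl d :: .inl d' :: T₂) σ p b V)
    (hL : Lb π x A (T₁ ++ .inl d :: .inl d' :: T₂) σ p b V μ) (hl : lab x d' = linv (lab x d))
    (hm : ∀ a ∈ A, ∀ i, ∀ a' ∈ A, σ d = .inl (a, i) → σ d' = .inl (a', i) → a'.2 = a.2) :
    ∃ (σ' : Dt ι ℓ → Dt ι ℓ) (p' : Dt ι ℓ → Ps G) (b' : Ps G) (V' : Finset ℕ),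
      St x c A (T₁ ++ T₂) σ' p' b' V' ∧ Lb π x A (T₁ ++ T₂) σ' p' b' V' μ ∧
        cl π x A p' μ = cl π x A p μ := by
  classical
  set T := T₁ ++ .inl d :: .inl d' :: T₂ with hT
  have hdT : Sum.inl d ∈ T := by simp [hT]
  have hdT' : Sum.inl d' ∈ T := by simp [hT]
  have hdr : drt T = drt T₁ ++ d :: d' :: drt T₂ := by simp [hT]
  have hnd := h.nodup
  rw [hdr] at hnd
  have hdd : d ≠ d' := by
    intro h1
    rw [h1] at hl
    exact linv_ne _ hl.symm
  have hn1 : d ∉ drt T₁ ++ drt T₂ := by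
    have h1 := (List.perm_middle (a := d) (l₁ := drt T₁) (l₂ := d' :: drt T₂)).nodup_iff.1 hnd
    intro h2
    refine (List.nodup_cons.1 h1).1 ?_
    simp only [List.mem_append, List.mem_cons] at h2 ⊢
    tauto
  have hn2 : d' ∉ drt T₁ ++ drt T₂ := by
    have h1 := (List.perm_middle (a := d) (l₁ := drt T₁) (l₂ := d' :: drt T₂)).nodup_iff.1 hnd
    have h3 := (List.nodup_cons.1 h1).2
    have h4 := (List.perm_middle (a := d') (l₁ := drt T₁) (l₂ := drt T₂)).nodup_iff.1 h3
    exact (List.nodup_cons.1 h4).1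
  have hn3 : (drt T₁ ++ drt T₂).Nodup := by
    have h1 := (List.perm_middle (a := d) (l₁ := drt T₁) (l₂ := d' :: drt T₂)).nodup_iff.1 hnd
    have h3 := (List.nodup_cons.1 h1).2
    have h4 := (List.perm_middle (a := d') (l₁ := drt T₁) (l₂ := drt T₂)).nodup_iff.1 h3
    exact (List.nodup_cons.1 h4).2
  have hmem : ∀ f, Sum.inl f ∈ T₁ ++ T₂ ↔ Sum.inl f ∈ T ∧ f ≠ d ∧ f ≠ d' := by
    intro f
    constructor
    · intro hf
      have h1 : f ∈ drt T₁ ++ drt T₂ := by rw [← drt_append, mem_drt]; exact hf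
      refine ⟨?_, ?_, ?_⟩
      · simp only [hT, List.mem_append, List.mem_cons] at hf ⊢
        tauto
      · rintro rfl; exact hn1 h1
      · rintro rfl; exact hn2 h1
    · rintro ⟨h1, h2, h3⟩
      simp only [hT, List.mem_append, List.mem_cons, Sum.inl.injEq] at h1 ⊢
      tauto
  have hLd : Live A T d := Or.inr hdT
  have hLd' : Live A T d' := Or.inr hdT'
  have hLive : ∀ f, Live A (T₁ ++ T₂) f ↔ Live A T f ∧ f ≠ d ∧ f ≠ d' := by
    intro f
    constructor
    · rintro (⟨a, ha, i, rfl⟩ | hf)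
      · exact ⟨Or.inl ⟨a, ha, i, rfl⟩, (Live.ne_inner h hdT ha).symm,
          (Live.ne_inner h hdT' ha).symm⟩
      · obtain ⟨h1, h2⟩ := (hmem f).1 hf
        exact ⟨Or.inr h1, h2⟩
    · rintro ⟨⟨a, ha, i, rfl⟩ | hf, h2⟩
      · exact Or.inl ⟨a, ha, i, rfl⟩
      · exact Or.inr ((hmem f).2 ⟨hf, h2⟩)
  obtain ⟨s, hp1, hp2⟩ := pth_append.1 h.path
  simp only [pth_inl] at hp2
  obtain ⟨hse, hsd, hp3⟩ := hp2
  -- count
  have hcnt := h.cnt
  have hlen : (drt T).length = (drt (T₁ ++ T₂)).length + 2 := by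
    rw [hdr, drt_append]
    simp [List.length_append]
    omega
  by_cases hsp : σ d = d'
  · -- spur
    have hsp' : σ d' = d := by rw [← hsp, h.ssig d hLd]
    have hsne : ∀ f, Live A T f → f ≠ d → f ≠ d' → σ f ≠ d ∧ σ f ≠ d' := by
      intro f hf h1 h2
      constructor
      · intro h3
        apply h2
        rw [← h.ssig f hf, h3, hsp]
      · intro h3
        apply h1
        rw [← h.ssig f hf, h3, hsp']
    have key : ∀ v, At v (p d') → At v b ∨ ∃ f, Live A (T₁ ++ T₂) f ∧ At v (p f) := by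
      intro v hv
      rw [← hsp, hse] at hv
      rcases pth_end hp1 hv with h1 | ⟨f, h1, h2⟩
      · exact Or.inl h1
      · exact Or.inr ⟨f, Or.inr (by simp [h1]), h2⟩
    have hpath : Pth σ p b (T₁ ++ T₂) b := by
      refine pth_append.2 ⟨s, hp1, ?_⟩
      rw [← hse, hsp]
      exact hp3
    have fin : ∀ V' : Finset ℕ, V' ⊆ V → V.card ≤ V'.card + 1 →
        (∀ v ∈ V', At v b ∨ ∃ f, Live A (T₁ ++ T₂) f ∧ At v (p f)) →
        (∀ f, Live A (T₁ ++ T₂) f → ∀ v, At v (p f) → v ∈ V') → (∀ v, At v b → v ∈ V') →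
        St x c A (T₁ ++ T₂) σ p b V' := by
      intro V' hV1 hV2 hV3 hV4 hV5
      refine ⟨by rw [drt_append]; exact hn3, fun a ha i hi => h.disj a ha i ((hmem _).1 hi).1,
        fun f hf => ?_, fun f hf => h.ssig f ((hLive f).1 hf).1,
        fun f hf => h.slab f ((hLive f).1 hf).1, h.inner, hpath, hV3, hV4, hV5, by omega, h.red⟩
      obtain ⟨h1, h2, h3⟩ := (hLive f).1 hf
      exact (hLive _).2 ⟨h.slive f h1, hsne f h1 h2 h3⟩
    by_cases hv : ∃ v ∈ V, ¬ (At v b ∨ ∃ f, Live A (T₁ ++ T₂) f ∧ At v (p f))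
    · obtain ⟨v₀, hv₀, hv₁⟩ := hv
      have hv₂ : vx (p d) = v₀ := by
        rcases h.att v₀ hv₀ with h3 | ⟨f', h3, h4⟩
        · exact absurd (Or.inl h3) hv₁
        · by_cases hf1 : f' = d'
          · subst hf1
            exact absurd (key v₀ h4) hv₁
          · by_cases hf2 : f' = d
            · subst hf2
              exact vx_of_at h4
            · exact absurd (Or.inr ⟨f', (hLive f').2 ⟨h3, hf2, hf1⟩, h4⟩) hv₁
      have hLb : Lb π x A (T₁ ++ T₂) σ p b (V.erase v₀) μ := by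
        refine ⟨hL.sb, fun f hf => hL.sp f ((hLive f).1 hf).1,
          fun f hf => hL.edge f ((hLive f).1 hf).1, ?_⟩
        rcases hL.conn with hc | hc
        · refine Or.inl fun S hS h2 f hf => ?_
          have hne : ∀ f, Live A (T₁ ++ T₂) f → vx (p f) ≠ v₀ := fun f hf h3 =>
            hv₁ (Or.inr ⟨f, hf, h3 ▸ at_vx (hL.sp f ((hLive f).1 hf).1)⟩)
          have hs : vx s ∈ S := pth_conn hp1 (fun f hf => h2 f (Or.inr (by simp [hf]))) hS
          have h3 := hc (insert v₀ S) (Set.mem_insert_of_mem _ hS) (fun g hg => by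
            by_cases c1 : g = d
            · rw [c1, hse, hv₂]
              simp [hs]
            · by_cases c2 : g = d'
              · rw [c2, hsp', hv₂, ← hsp, hse]
                simp [hs]
              · have g1 : Live A (T₁ ++ T₂) g := (hLive g).2 ⟨hg, c1, c2⟩
                have g2 : Live A (T₁ ++ T₂) (σ g) :=
                  (hLive _).2 ⟨h.slive g hg, hsne g hg c1 c2⟩
                simp only [Set.mem_insert_iff, hne g g1, hne _ g2, false_or]
                exact h2 g g1) f ((hLive f).1 hf).1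
          rcases h3 with h3 | h3
          · exact absurd h3 (hne f hf)
          · exact h3
        · right
          rw [Finset.card_erase_of_mem hv₀]
          have := Finset.card_pos.2 ⟨v₀, hv₀⟩
          omega
      refine ⟨σ, p, b, V.erase v₀, fin _ (Finset.erase_subset _ _) ?_ ?_ ?_ ?_, hLb, rfl⟩
      · rw [Finset.card_erase_of_mem hv₀]; omega
      · intro v hv
        rcases h.att v (Finset.mem_of_mem_erase hv) with h1 | ⟨f, h1, h2⟩
        · exact Or.inl h1
        · by_cases hfd' : f = d'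
          · subst hfd'
            exact key v h2
          · by_cases hfd : f = d
            · subst hfd
              exfalso
              rcases h.att v₀ hv₀ with h3 | ⟨f', h3, h4⟩
              · exact hv₁ (Or.inl h3)
              · by_cases hf1 : f' = d'
                · subst hf1
                  exact hv₁ (key v₀ h4)
                · by_cases hf2 : f' = f
                  · subst hf2
                    obtain ⟨g1, h5⟩ := h2
                    obtain ⟨g2, h6⟩ := h4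
                    rw [h5] at h6
                    simp only [Option.some.injEq, Prod.mk.injEq] at h6
                    exact (Finset.ne_of_mem_erase hv) h6.1
                  · exact hv₁ (Or.inr ⟨f', (hLive f').2 ⟨h3, hf2, hf1⟩, h4⟩)
            · exact Or.inr ⟨f, (hLive f).2 ⟨h1, hfd, hfd'⟩, h2⟩
      · intro f hf v hv
        refine Finset.mem_erase.2 ⟨?_, h.vmem f ((hLive f).1 hf).1 v hv⟩
        rintro rfl
        exact hv₁ (Or.inr ⟨f, hf, hv⟩)
      · intro v hv
        refine Finset.mem_erase.2 ⟨?_, h.bmem v hv⟩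
        rintro rfl
        exact hv₁ (Or.inl hv)
    · push Not at hv
      refine ⟨σ, p, b, V, fin V subset_rfl (by omega) ?_ ?_ h.bmem,
        ⟨hL.sb, fun f hf => hL.sp f ((hLive f).1 hf).1,
          fun f hf => hL.edge f ((hLive f).1 hf).1, Or.inr (by omega)⟩, rfl⟩
      · exact hv
      · exact fun f hf => h.vmem f ((hLive f).1 hf).1
  · -- the general case
    set e := σ d with he
    set e' := σ d' with he'
    have hee : σ e = d := h.ssig d hLd
    have hee' : σ e' = d' := h.ssig d' hLd'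
    have hLe : Live A T e := h.slive d hLd
    have hLe' : Live A T e' := h.slive d' hLd'
    have hne1 : e ≠ d := h.sig_ne hLd
    have hne2 : e' ≠ d' := h.sig_ne hLd'
    have hne3 : e' ≠ d := by
      intro h1
      apply hsp
      rw [he, ← h1, hee']
    have hne4 : e ≠ e' := by
      intro h1
      apply hdd
      rw [← hee, h1, hee']
    have hLe1 : Live A (T₁ ++ T₂) e := (hLive e).2 ⟨hLe, hne1, hsp⟩
    have hLe2 : Live A (T₁ ++ T₂) e' := (hLive e').2 ⟨hLe', hne3, hne2⟩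
    have hev : ev π μ s = ev π μ (p d') := by
      rw [← hL.edge d' hLd', ← he', hsd, ← hL.edge d hLd, ← he, hse, hl, lX_linv, map_inv]
      group
    obtain ⟨Φ, V', hΦ1, hΦ2, hΦ3, hΦ4, hΦ5, hΦ6, hΦ7, φ, hΦ8⟩ := exists_phiL hπ μ s (p d') V
      (by rw [← hse]; exact h.vmem e hLe) (h.vmem d' hLd') (by rw [← hse]; exact hL.sp e hLe)
      (hL.sp d' hLd') hev
    set σ' : Dt ι ℓ → Dt ι ℓ := fun f => if f = e then e' else if f = e' then e else σ f with hσ'
    have hσe : σ' e = e' := by simp [hσ']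
    have hσe' : σ' e' = e := by simp [hσ', hne4.symm]
    have hσo : ∀ f, f ≠ e → f ≠ e' → σ' f = σ f := by
      intro f h1 h2
      simp [hσ', h1, h2]
    have star : ∀ f, Φ (p (σ' f)) = Φ (p (σ f)) := by
      intro f
      by_cases h1 : f = e
      · rw [h1, hσe, hee, he', hsd]
      · by_cases h2 : f = e'
        · rw [h2, hσe', hee', he, hse, hΦ2]
        · rw [hσo f h1 h2]
    have hsl : ∀ f, Live A (T₁ ++ T₂) f → Live A (T₁ ++ T₂) (σ' f) := by
      intro f hf
      by_cases h1 : f = e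
      · rw [h1, hσe]; exact hLe2
      · by_cases h2 : f = e'
        · rw [h2, hσe']; exact hLe1
        · rw [hσo f h1 h2]
          obtain ⟨h3, h4, h5⟩ := (hLive f).1 hf
          refine (hLive _).2 ⟨h.slive f h3, ?_, ?_⟩
          · intro h6; apply h1; rw [← h.ssig f h3, h6]
          · intro h6; apply h2; rw [← h.ssig f h3, h6]
    have hLb : Lb π x A (T₁ ++ T₂) σ' (fun f => Φ (p f)) (Φ b) V' μ := by
      refine ⟨(hΦ7 b hL.sb).1, fun f hf => (hΦ7 _ (hL.sp f ((hLive f).1 hf).1)).1,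
        fun f hf => ?_, ?_⟩
      · have h3 := ((hLive f).1 hf).1
        show ev π μ (Φ (p (σ' f))) * _ = ev π μ (Φ (p f))
        rw [star, (hΦ7 _ (hL.sp _ (h.slive f h3))).2, (hΦ7 _ (hL.sp f h3)).2]
        exact hL.edge f h3
      · rcases hL.conn with hc | hc
        · refine Or.inl fun S hS h2 f hf => ?_
          have h3 := ((hLive f).1 hf).1
          show vx (Φ (p f)) ∈ S
          rw [hΦ8 _ (hL.sp f h3)]
          have h4 : ∀ g, Live A (T₁ ++ T₂) g →
              (vx (Φ (p (σ g))) ∈ S ↔ vx (Φ (p g)) ∈ S) := fun g hg => by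
            rw [← star]
            exact h2 g hg
          refine hc (φ ⁻¹' S) (by rw [Set.mem_preimage, ← hΦ8 _ hL.sb]; exact hS)
            (fun g hg => ?_) f h3
          rw [Set.mem_preimage, Set.mem_preimage, ← hΦ8 _ (hL.sp g hg),
            ← hΦ8 _ (hL.sp _ (h.slive g hg))]
          by_cases c1 : g = d
          · have h5 := h4 e hLe1
            rw [hee] at h5
            rw [c1]
            exact h5.symm
          · by_cases c2 : g = d'
            · have h5 := h4 e' hLe2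
              rw [hee'] at h5
              rw [c2]
              exact h5.symm
            · exact h4 g ((hLive g).2 ⟨hg, c1, c2⟩)
        · right
          omega
    refine ⟨σ', fun f => Φ (p f), Φ b, V', ?_, hLb, cl_congr π x fun a ha =>
      (hΦ7 _ (hL.sp _ (Or.inl ⟨a, ha, 0, rfl⟩))).2⟩
    refine ⟨by rw [drt_append]; exact hn3, fun a ha i hi => h.disj a ha i ((hmem _).1 hi).1,
      hsl, ?_, ?_, ?_, ?_, ?_, ?_, ?_, ?_, ?_⟩
    · -- involution
      intro f hf
      by_cases h1 : f = e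
      · rw [h1, hσe, hσe']
      · by_cases h2 : f = e'
        · rw [h2, hσe', hσe]
        · obtain ⟨h3, h4, h5⟩ := (hLive f).1 hf
          rw [hσo f h1 h2, hσo, h.ssig f h3]
          · intro h6; apply h4; rw [← h.ssig f h3, h6, hee]
          · intro h6; apply h5; rw [← h.ssig f h3, h6, hee']
    · -- labels
      intro f hf
      have hle : lab x e = linv (lab x d) := h.slab d hLd
      have hle' : lab x e' = linv (lab x d') := h.slab d' hLd'
      by_cases h1 : f = e
      · rw [h1, hσe, hle, hle', hl]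
      · by_cases h2 : f = e'
        · rw [h2, hσe', hle, hle', hl]; simp
        · rw [hσo f h1 h2]
          exact h.slab f ((hLive f).1 hf).1
    · -- inner
      intro a ha i
      show Φ (p (σ' _)) = pm (Φ (p _)) _
      rw [star, h.inner a ha i, hΦ1]
    · -- path
      have q1 : Pth σ' (fun f => Φ (p f)) (Φ b) T₁ (Φ s) :=
        pth_map (σ' := σ') (p' := fun f => Φ (p f)) hΦ1 (fun f _ => star f) (fun f _ => rfl) hp1
      have q2 : Pth σ' (fun f => Φ (p f)) (Φ (p d')) T₂ (Φ b) :=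
        pth_map (σ' := σ') (p' := fun f => Φ (p f)) hΦ1 (fun f _ => star f) (fun f _ => rfl) hp3
      exact pth_append.2 ⟨Φ s, q1, by rw [hΦ2]; exact q2⟩
    · -- vertices are attained
      intro v hv
      rcases h.att v (hΦ3 hv) with h1 | ⟨f, h1, h2⟩
      · exact Or.inl (hΦ5 v hv b h1)
      · by_cases hfd : f = d
        · refine Or.inr ⟨e', hLe2, ?_⟩
          show At v (Φ (p e'))
          rw [he', hsd, ← hfd]
          exact hΦ5 v hv _ h2
        · by_cases hfd' : f = d'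
          · refine Or.inr ⟨e, hLe1, ?_⟩
            show At v (Φ (p e))
            rw [he, hse, hΦ2, ← hfd']
            exact hΦ5 v hv _ h2
          · exact Or.inr ⟨f, (hLive f).2 ⟨h1, hfd, hfd'⟩, hΦ5 v hv _ h2⟩
    · intro f hf v hv
      exact hΦ6 (p f) (h.vmem f ((hLive f).1 hf).1) v hv
    · intro v hv
      exact hΦ6 b h.bmem v hv
    · omega
    · intro a ha i a' ha' h1
      by_cases h2 : Sum.inl (a, i) = e
      · rw [h2, hσe] at h1
        exact hm a ha i a' ha' h2.symm h1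
      · by_cases h3 : Sum.inl (a, i) = e'
        · rw [h3, hσe'] at h1
          exact (hm a' ha' i a ha h1 h3.symm).symm
        · rw [hσo _ h2 h3] at h1
          exact h.red a ha i a' ha' h1

end Vale.Agent.N174.Lab
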