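import Vale.Agent.N174.Lab1

/-!
P174: planar diagrams with labels; removing mirror faces, inserting spurs and faces.
-/

namespace Vale.Agent.N174.Lab

open Vale.Agent.P174.LO

universe u v w

variable {G : Type u} [Group G] {ι : Type v} {ℓ : ℕ} [NeZero ℓ] {Γ : Type w} [Group Γ]

variable {π : XX G ι →* Γ} {x : ZMod ℓ → ι × Bool} {c : ZMod ℓ → G}
  {A : Finset Fc} {T : List (Dt ι ℓ ⊕ G)} {σ : Dt ι ℓ → Dt ι ℓ} {p : Dt ι ℓ → Ps G}
  {b : Ps G} {V : Finset ℕ} {μ : ℕ → Γ}

/-- the value of the initial segment of the relator -/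
def ini (π : XX G ι →* Γ) (x : ZMod ℓ → ι × Bool) (c : ZMod ℓ → G) (i : ZMod ℓ) : Γ :=
  π (seg x c 0 i.val)

omit [NeZero ℓ] in
theorem ini_zero : ini π x c 0 = 1 := by
  simp [ini, seg]

theorem ini_succ (hr : π (seg x c 0 ℓ) = 1) (i : ZMod ℓ) :
    ini π x c (i + 1) = ini π x c i * (π (lX G (x i)) * π (cX ι (c i))) := by
  have h1 : π (seg x c 0 (i.val + 1)) = ini π x c i * (π (lX G (x i)) * π (cX ι (c i))) := by
    rw [seg_succ, map_mul, map_mul, zero_add, ZMod.natCast_zmod_val, ini]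
  rw [← h1, ini]
  have h2 := ZMod.val_lt i
  have h3 : (i + 1).val = (i.val + 1) % ℓ := by
    have h4 : i + 1 = ((i.val + 1 : ℕ) : ZMod ℓ) := by
      push_cast
      rw [ZMod.natCast_zmod_val]
    rw [h4, ZMod.val_natCast]
  by_cases h4 : i.val + 1 < ℓ
  · rw [h3, Nat.mod_eq_of_lt h4]
  · have h5 : i.val + 1 = ℓ := by omega
    have h6 : ∀ k, k = ℓ → seg x c 0 k = seg x c 0 ℓ := fun k hk => by rw [hk]
    rw [h3, h6 _ h5, hr, h5, Nat.mod_self]
    simp [seg]

omit [NeZero ℓ] in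
theorem sl_succ (h : St x c A T σ p b V) (hL : Lb π x A T σ p b V μ) {a : Fc} (ha : a ∈ A)
    (i : ZMod ℓ) :
    sl π x p μ a (i + 1) = sl π x p μ a i * (π (lX G (x i)) * π (cX ι (c i))) := by
  have key : ∀ j, ev π μ (p (.inl (a, j))) * π (cX ι (cor c (a, j))) *
      π (lX G (ilab x (nxt (a, j)))) = ev π μ (p (.inl (nxt (a, j)))) := by
    intro j
    rw [← ev_pm π μ (hL.sp _ (Or.inl ⟨a, ha, j, rfl⟩)), ← h.inner a ha j]
    exact hL.edge (.inl (nxt (a, j))) (Or.inl ⟨a, ha, _, rfl⟩)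
  rcases a with ⟨m, s⟩
  cases s
  · have h1 := key (i + 1)
    simp only [cor, nxt, ilab, Bool.false_eq_true, if_false, add_sub_cancel_right, cX_inv,
      lX_linv, map_inv] at h1
    simp only [sl, Bool.false_eq_true, if_false, ← h1]
    group
  · have h1 := key i
    simp only [cor, nxt, ilab, if_true] at h1
    simp only [sl, if_true, ← h1]
    group

theorem sl_eq (h : St x c A T σ p b V) (hL : Lb π x A T σ p b V μ) {a : Fc} (ha : a ∈ A)
    (i : ZMod ℓ) : sl π x p μ a i = sl π x p μ a 0 * ini π x c i := by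
  have key : ∀ k : ℕ, sl π x p μ a (k : ZMod ℓ) = sl π x p μ a 0 * π (seg x c 0 k) := by
    intro k
    induction k with
    | zero => simp [seg]
    | succ k ih =>
      rw [Nat.cast_succ, sl_succ h hL ha, ih, seg_succ, map_mul, map_mul, zero_add, mul_assoc]
  have h1 := key i.val
  rwa [ZMod.natCast_zmod_val] at h1

/-- two adjacent outer darts at mirror faces: remove the two faces -/
theorem unpeelL {T₁ T₂ : List (Dt ι ℓ ⊕ G)} {d d' : Dt ι ℓ}
    (h : St x c A (T₁ ++ .inl d :: .inl d' :: T₂) σ p b V)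
    (hL : Lb π x A (T₁ ++ .inl d :: .inl d' :: T₂) σ p b V μ) {a a' : Fc} {i : ZMod ℓ}
    (ha : a ∈ A) (ha' : a' ∈ A) (hd : σ d = .inl (a, i)) (hd' : σ d' = .inl (a', i))
    (hs : a'.2 ≠ a.2) :
    Lb π x ((A.erase a).erase a') (T₁ ++ (rblk c ι (a, i) (ℓ - 1) ++
      (rblk c ι (a', i) (ℓ - 1) ++ T₂))) σ p b V μ ∧
      cl π x ((A.erase a).erase a') p μ = cl π x A p μ := by
  classical
  have hl : 0 < ℓ := Nat.pos_of_ne_zero (NeZero.ne ℓ)
  set T := T₁ ++ .inl d :: .inl d' :: T₂ with hT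
  have hdT : Sum.inl d ∈ T := by simp [hT]
  have hdT' : Sum.inl d' ∈ T := by simp [hT]
  have haa : a ≠ a' := by rintro rfl; exact hs rfl
  have hdr : drt T = drt T₁ ++ d :: d' :: drt T₂ := by simp [hT]
  have hnd := h.nodup
  rw [hdr] at hnd
  have h1 := (List.perm_middle (a := d) (l₁ := drt T₁) (l₂ := d' :: drt T₂)).nodup_iff.1 hnd
  have h3 := (List.nodup_cons.1 h1).2
  have h4 := (List.perm_middle (a := d') (l₁ := drt T₁) (l₂ := drt T₂)).nodup_iff.1 h3
  have hdd : d ≠ d' := by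
    rintro rfl
    exact (List.nodup_cons.1 h1).1 (by simp)
  have hn1 : d ∉ drt T₁ ++ drt T₂ := by
    intro h2
    refine (List.nodup_cons.1 h1).1 ?_
    simp only [List.mem_append, List.mem_cons] at h2 ⊢
    tauto
  have hn2 : d' ∉ drt T₁ ++ drt T₂ := (List.nodup_cons.1 h4).1
  have hn3 : (drt T₁ ++ drt T₂).Nodup := (List.nodup_cons.1 h4).2
  have hmem : ∀ f, Sum.inl f ∈ T₁ ++ T₂ ↔ Sum.inl f ∈ T ∧ f ≠ d ∧ f ≠ d' := by
    intro f
    constructor
    · intro hf
      have h9 : f ∈ drt T₁ ++ drt T₂ := by rw [← drt_append, mem_drt]; exact hf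
      refine ⟨?_, ?_, ?_⟩
      · simp only [hT, List.mem_append, List.mem_cons] at hf ⊢
        tauto
      · intro h8; rw [h8] at h9; exact hn1 h9
      · intro h8; rw [h8] at h9; exact hn2 h9
    · rintro ⟨h1, h2, h3⟩
      simp only [hT, List.mem_append, List.mem_cons, Sum.inl.injEq] at h1 ⊢
      tauto
  set N := T₁ ++ (rblk c ι (a, i) (ℓ - 1) ++ (rblk c ι (a', i) (ℓ - 1) ++ T₂)) with hN
  have hmN : ∀ f, Sum.inl f ∈ N ↔ (Sum.inl f ∈ T ∧ f ≠ d ∧ f ≠ d') ∨
      (∃ j, j ≠ i ∧ f = .inl (a, j)) ∨ (∃ j, j ≠ i ∧ f = .inl (a', j)) := by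
    intro f
    rw [← hmem f]
    simp only [hN, List.mem_append, mem_rblk]
    have taut : ∀ P Q R S : Prop, (P ∨ Q ∨ R ∨ S) ↔ ((P ∨ S) ∨ Q ∨ R) := by
      intro P Q R S
      tauto
    exact taut _ _ _ _
  have hLd : Live A T d := Or.inr hdT
  have hLd' : Live A T d' := Or.inr hdT'
  have hLive : ∀ f, Live ((A.erase a).erase a') N f ↔ Live A T f ∧ f ≠ d ∧ f ≠ d' ∧
      f ≠ .inl (a, i) ∧ f ≠ .inl (a', i) := by
    intro f
    constructor
    · rintro (⟨z, hz, j, rfl⟩ | hf)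
      · have hz1 : z ∈ A := Finset.mem_of_mem_erase (Finset.mem_of_mem_erase hz)
        have hz2 : z ≠ a' := Finset.ne_of_mem_erase hz
        have hz3 : z ≠ a := Finset.ne_of_mem_erase (Finset.mem_of_mem_erase hz)
        refine ⟨Or.inl ⟨z, hz1, j, rfl⟩, (Live.ne_inner h hdT hz1).symm,
          (Live.ne_inner h hdT' hz1).symm, ?_, ?_⟩
        · simp [hz3]
        · simp [hz2]
      · rcases (hmN f).1 hf with ⟨h5, h6, h7⟩ | ⟨j, hj, rfl⟩ | ⟨j, hj, rfl⟩
        · exact ⟨Or.inr h5, h6, h7, Live.ne_inner h h5 ha, Live.ne_inner h h5 ha'⟩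
        · refine ⟨Or.inl ⟨a, ha, j, rfl⟩, (Live.ne_inner h hdT ha).symm,
            (Live.ne_inner h hdT' ha).symm, ?_, ?_⟩
          · simp [hj]
          · simp [haa]
        · refine ⟨Or.inl ⟨a', ha', j, rfl⟩, (Live.ne_inner h hdT ha').symm,
            (Live.ne_inner h hdT' ha').symm, ?_, ?_⟩
          · simp [haa.symm]
          · simp [hj]
    · rintro ⟨⟨z, hz, j, rfl⟩ | hf, h5, h6, h7, h8⟩
      · by_cases hz1 : z = a
        · subst hz1
          refine Or.inr ((hmN _).2 (Or.inr (Or.inl ⟨j, ?_, rfl⟩)))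
          rintro rfl
          exact h7 rfl
        · by_cases hz2 : z = a'
          · subst hz2
            refine Or.inr ((hmN _).2 (Or.inr (Or.inr ⟨j, ?_, rfl⟩)))
            rintro rfl
            exact h8 rfl
          · exact Or.inl ⟨z, Finset.mem_erase.2 ⟨hz2, Finset.mem_erase.2 ⟨hz1, hz⟩⟩, j, rfl⟩
      · exact Or.inr ((hmN _).2 (Or.inl ⟨hf, h5, h6⟩))
  have hsd : σ (.inl (a, i)) = d := by rw [← hd, h.ssig d hLd]
  have hsd' : σ (.inl (a', i)) = d' := by rw [← hd', h.ssig d' hLd']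
  obtain ⟨s, hp1, hp2⟩ := pth_append.1 h.path
  simp only [pth_inl] at hp2
  obtain ⟨hse, hse', hp3⟩ := hp2
  have q1 : Pth σ p s (rblk c ι (a, i) (ℓ - 1)) (p d) := by
    have := pth_rblk' (c := c) (h.inner a ha) i
    rwa [hsd, ← hd, hse] at this
  have q2 : Pth σ p (p d) (rblk c ι (a', i) (ℓ - 1)) (p d') := by
    have := pth_rblk' (c := c) (h.inner a' ha') i
    rwa [hsd', ← hd', hse'] at this
  have hpath : Pth σ p b N b := pth_append.2 ⟨s, hp1, pth_append.2 ⟨p d, q1, pth_append.2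
    ⟨p d', q2, hp3⟩⟩⟩
  have hdN : drt N = drt T₁ ++ (drt (rblk c ι (a, i) (ℓ - 1)) ++
      (drt (rblk c ι (a', i) (ℓ - 1)) ++ drt T₂)) := by
    simp [hN]
  have h5 : a' ∈ A.erase a := Finset.mem_erase.2 ⟨haa.symm, ha'⟩
  refine ⟨⟨hL.sb, fun f hf => hL.sp f ((hLive f).1 hf).1,
    fun f hf => hL.edge f ((hLive f).1 hf).1, ?_⟩, ?_⟩
  · rcases hL.conn with hc | hc
    · refine Or.inl fun S hS h2 f hf => hc S hS (fun g hg => ?_) f ((hLive f).1 hf).1
      have e1 : vx s ∈ S := pth_conn hp1 (fun f hf => h2 f (Or.inr (by simp [hN, hf]))) hS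
      have e2 : vx (p d) ∈ S := pth_conn q1 (fun f hf => h2 f (Or.inr (by simp [hN, hf]))) e1
      have e3 : vx (p d') ∈ S := pth_conn q2 (fun f hf => h2 f (Or.inr (by simp [hN, hf]))) e2
      by_cases c1 : g = d
      · rw [c1, hse]
        exact iff_of_true e1 e2
      by_cases c2 : g = d'
      · rw [c2, hse']
        exact iff_of_true e2 e3
      by_cases c3 : g = .inl (a, i)
      · rw [c3, hsd, ← hd, hse]
        exact iff_of_true e2 e1
      by_cases c4 : g = .inl (a', i)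
      · rw [c4, hsd', ← hd', hse']
        exact iff_of_true e3 e2
      exact h2 g ((hLive g).2 ⟨hg, c1, c2, c3, c4⟩)
    · right
      have hc1 : ((A.erase a).erase a').card + 2 = A.card := by
        have h6 := Finset.card_erase_add_one h5
        have h7 := Finset.card_erase_add_one ha
        omega
      have hc2 : (drt N).length = (drt T₁).length + (ℓ - 1) + (ℓ - 1) + (drt T₂).length := by
        rw [hdN]
        simp only [List.length_append, length_drt_rblk]
        omega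
      have hc3 : (drt T).length = (drt T₁).length + 2 + (drt T₂).length := by
        rw [hdr]
        simp only [List.length_append, List.length_cons]
        omega
      rw [← hc1, mul_add] at hc
      omega
  · have e1 := hL.edge d hLd
    have e2 := hL.edge d' hLd'
    have l1 := h.slab (.inl (a, i)) (Or.inl ⟨a, ha, i, rfl⟩)
    rw [hsd] at l1
    rw [hd, l1] at e1
    rw [hd'] at hse'
    have e3 : sl π x p μ a i = sl π x p μ a' i := by
      rcases a with ⟨m, sa⟩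
      rcases a' with ⟨m', sa'⟩
      cases sa <;> cases sa' <;> simp at hs
      · simp only [sl, Bool.false_eq_true, if_false, if_true]
        rw [hse', ← e1]
        simp [lab, ilab]
      · simp only [sl, Bool.false_eq_true, if_false, if_true]
        rw [hse', ← e1]
        simp [lab, ilab, lX_linv]
    rw [sl_eq h hL ha, sl_eq h hL ha' i] at e3
    have e4 := mul_right_cancel e3
    unfold cl
    rw [← Finset.add_sum_erase A _ ha, ← Finset.add_sum_erase _ _ h5, ← add_assoc, e4,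
      ← Finsupp.single_add]
    have e5 : ((if a.2 then -1 else 1) + (if a'.2 then -1 else 1) : ℤ) = 0 := by
      revert hs
      cases a.2 <;> cases a'.2 <;> simp
    rw [e5, Finsupp.single_zero, zero_add]

omit [NeZero ℓ] in
/-- inserting a spur -/
theorem spurL {T₁ T₂ : List (Dt ι ℓ ⊕ G)} (h : St x c A (T₁ ++ T₂) σ p b V)
    (hL : Lb π x A (T₁ ++ T₂) σ p b V μ) (a : ι × Bool) :
    ∃ (k : ℕ) (σ' : Dt ι ℓ → Dt ι ℓ) (p' : Dt ι ℓ → Ps G) (V' : Finset ℕ) (μ' : ℕ → Γ),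
      St x c A (T₁ ++ .inl (.inr (k, a)) :: .inl (.inr (k, linv a)) :: T₂) σ' p' b V' ∧
      Lb π x A (T₁ ++ .inl (.inr (k, a)) :: .inl (.inr (k, linv a)) :: T₂) σ' p' b V' μ' ∧
      ev π μ' b = ev π μ b ∧ cl π x A p' μ' = cl π x A p μ := by
  classical
  obtain ⟨k, hk⟩ := exists_fresh_out (T₁ ++ T₂)
  obtain ⟨v, hv⟩ := Infinite.exists_notMem_finset V
  obtain ⟨s, hp1, hp2⟩ := pth_append.1 h.path
  set d₁ : Dt ι ℓ := .inr (k, a) with hd₁
  set d₂ : Dt ι ℓ := .inr (k, linv a) with hd₂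
  have hdd : d₂ ≠ d₁ := by
    simp only [hd₁, hd₂, ne_eq, Sum.inr.injEq, Prod.mk.injEq, true_and]
    exact linv_ne a
  have hn1 : Sum.inl d₁ ∉ T₁ ++ T₂ := hk k le_rfl a
  have hn2 : Sum.inl d₂ ∉ T₁ ++ T₂ := hk k le_rfl (linv a)
  have hne : ∀ f, Live A (T₁ ++ T₂) f → f ≠ d₁ ∧ f ≠ d₂ := by
    rintro f (⟨a', ha', i, rfl⟩ | hf)
    · exact ⟨by simp [hd₁], by simp [hd₂]⟩
    · exact ⟨by rintro rfl; exact hn1 hf, by rintro rfl; exact hn2 hf⟩
  set σ' : Dt ι ℓ → Dt ι ℓ := fun f => if f = d₁ then d₂ else if f = d₂ then d₁ else σ f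
    with hσ'
  set p' : Dt ι ℓ → Ps G := fun f => if f = d₁ then some (v, 1) else if f = d₂ then s else p f
    with hp'
  have s1 : σ' d₁ = d₂ := by simp [hσ']
  have s2 : σ' d₂ = d₁ := by simp [hσ', hdd]
  have s3 : ∀ f, Live A (T₁ ++ T₂) f → σ' f = σ f := by
    intro f hf
    simp [hσ', (hne f hf).1, (hne f hf).2]
  have p1 : p' d₁ = some (v, 1) := by simp [hp']
  have p2 : p' d₂ = s := by simp [hp', hdd]
  have p3 : ∀ f, Live A (T₁ ++ T₂) f → p' f = p f := by
    intro f hf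
    simp [hp', (hne f hf).1, (hne f hf).2]
  have hLive : ∀ f, Live A (T₁ ++ .inl d₁ :: .inl d₂ :: T₂) f ↔
      Live A (T₁ ++ T₂) f ∨ f = d₁ ∨ f = d₂ := by
    intro f
    simp only [Live, List.mem_append, List.mem_cons, Sum.inl.injEq]
    exact spur_taut _ _ _ _ _
  have hs0 : s ≠ none := (pth_ev π μ (lab x) hp1 hL.sb fun f hf =>
    ⟨hL.sp f (Or.inr (by simp [hf])), hL.edge f (Or.inr (by simp [hf]))⟩).1
  obtain ⟨μ', hμ'⟩ : ∃ μ' : ℕ → Γ, μ' = Function.update μ v (ev π μ s * π (lX G a)) := ⟨_, rfl⟩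
  have hμ : ∀ q : Ps G, (∀ z, At z q → z ∈ V) → ev π μ' q = ev π μ q := fun q hq =>
    ev_congr π fun z hz => by
      rw [hμ', Function.update_of_ne]
      rintro rfl
      exact hv (hq _ hz)
  have hμs : ev π μ' s = ev π μ s := hμ s fun z hz => h.mid hp1 hz
  have hμv : ev π μ' (some (v, 1)) = ev π μ s * π (lX G a) := by
    simp [ev, hμ']
  have hLb : Lb π x A (T₁ ++ .inl d₁ :: .inl d₂ :: T₂) σ' p' b (insert v V) μ' := by
    refine ⟨hL.sb, fun f hf => ?_, fun f hf => ?_, ?_⟩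
    · rcases (hLive f).1 hf with h1 | rfl | rfl
      · rw [p3 f h1]; exact hL.sp f h1
      · rw [p1]; simp
      · rw [p2]; exact hs0
    · rcases (hLive f).1 hf with h1 | rfl | rfl
      · rw [s3 f h1, p3 f h1, p3 _ (h.slive f h1), hμ _ (h.vmem f h1),
          hμ _ (h.vmem _ (h.slive f h1))]
        exact hL.edge f h1
      · rw [s1, p1, p2, hμs, hμv]
        rfl
      · rw [s2, p1, p2, hμs, hμv]
        have h1 : lab x d₂ = linv a := rfl
        rw [h1, lX_linv, map_inv]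
        group
    · rcases hL.conn with hc | hc
      · refine Or.inl fun S hS h2 f hf => ?_
        have h3 : ∀ g, Live A (T₁ ++ T₂) g → (vx (p (σ g)) ∈ S ↔ vx (p g) ∈ S) := by
          intro g hg
          have h4 := h2 g ((hLive g).2 (Or.inl hg))
          rwa [s3 g hg, p3 g hg, p3 _ (h.slive g hg)] at h4
        have h4 : vx s ∈ S := pth_conn hp1 (fun f hf => h3 f (Or.inr (by simp [hf]))) hS
        rcases (hLive f).1 hf with h1 | rfl | rfl
        · rw [p3 f h1]
          exact hc S hS h3 f h1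
        · refine (h2 _ hf).1 ?_
          rwa [s1, p2]
        · rwa [p2]
      · right
        rw [Finset.card_insert_of_notMem hv]
        simp only [drt_append, drt_inl, List.length_append, List.length_cons] at hc ⊢
        omega
  refine ⟨k, σ', p', insert v V, μ', ?_, hLb, hμ b h.bmem, cl_congr π x fun z hz => by
    rw [p3 _ (Or.inl ⟨z, hz, 0, rfl⟩), hμ _ (h.vmem _ (Or.inl ⟨z, hz, 0, rfl⟩))]⟩
  refine ⟨?_, ?_, ?_, ?_, ?_, ?_, ?_, ?_, ?_, ?_, ?_, ?_⟩
  · have h1 : drt (T₁ ++ Sum.inl d₁ :: Sum.inl d₂ :: T₂) = drt T₁ ++ d₁ :: d₂ :: drt T₂ := by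
      simp
    rw [h1, List.perm_middle.nodup_iff, List.nodup_cons, List.perm_middle.nodup_iff,
      List.nodup_cons]
    have h2 := h.nodup
    rw [drt_append] at h2
    refine ⟨?_, ?_, h2⟩
    · intro h3
      simp only [List.mem_append, List.mem_cons, mem_drt] at h3
      simp only [List.mem_append] at hn1
      rcases h3 with h3 | h3 | h3
      · exact hn1 (Or.inl h3)
      · exact hdd h3.symm
      · exact hn1 (Or.inr h3)
    · rw [← drt_append, mem_drt]; exact hn2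
  · intro z hz i hi
    simp only [List.mem_append, List.mem_cons, Sum.inl.injEq, hd₁, hd₂] at hi
    apply h.disj z hz i
    simp only [List.mem_append]
    rcases hi with hi | hi | hi | hi
    · exact Or.inl hi
    · simp at hi
    · simp at hi
    · exact Or.inr hi
  · intro f hf
    rcases (hLive f).1 hf with h1 | rfl | rfl
    · rw [s3 f h1]; exact (hLive _).2 (Or.inl (h.slive f h1))
    · rw [s1]; exact (hLive _).2 (Or.inr (Or.inr rfl))
    · rw [s2]; exact (hLive _).2 (Or.inr (Or.inl rfl))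
  · intro f hf
    rcases (hLive f).1 hf with h1 | rfl | rfl
    · rw [s3 f h1, s3 _ (h.slive f h1), h.ssig f h1]
    · rw [s1, s2]
    · rw [s2, s1]
  · intro f hf
    rcases (hLive f).1 hf with h1 | rfl | rfl
    · rw [s3 f h1, h.slab f h1]
    · rw [s1]; rfl
    · rw [s2]; simp [lab, hd₁, hd₂]
  · intro z hz i
    have h1 : Live A (T₁ ++ T₂) (.inl (nxt (z, i))) := Or.inl ⟨z, hz, _, rfl⟩
    rw [s3 _ h1, p3 _ (h.slive _ h1), p3 _ (Or.inl ⟨z, hz, i, rfl⟩), h.inner z hz i]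
  · have q1 : ∀ f, Sum.inl f ∈ T₁ → Live A (T₁ ++ T₂) f := fun f hf => Or.inr (by simp [hf])
    have q2 : ∀ f, Sum.inl f ∈ T₂ → Live A (T₁ ++ T₂) f := fun f hf => Or.inr (by simp [hf])
    refine pth_append.2 ⟨s, pth_congr (fun f hf => ?_) (fun f hf => p3 f (q1 f hf)) hp1, ?_⟩
    · rw [s3 f (q1 f hf), p3 _ (h.slive f (q1 f hf))]
    · simp only [pth_inl]
      refine ⟨by rw [s1, p2], by rw [s2], ?_⟩
      rw [p2]
      refine pth_congr (fun f hf => ?_) (fun f hf => p3 f (q2 f hf)) hp2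
      rw [s3 f (q2 f hf), p3 _ (h.slive f (q2 f hf))]
  · intro z hz
    rcases Finset.mem_insert.1 hz with rfl | hz
    · exact Or.inr ⟨d₁, (hLive _).2 (Or.inr (Or.inl rfl)), 1, p1⟩
    · rcases h.att z hz with h1 | ⟨f, h1, h2⟩
      · exact Or.inl h1
      · exact Or.inr ⟨f, (hLive _).2 (Or.inl h1), by rw [p3 f h1]; exact h2⟩
  · intro f hf z hz
    rcases (hLive f).1 hf with h1 | rfl | rfl
    · rw [p3 f h1] at hz
      exact Finset.mem_insert_of_mem (h.vmem f h1 z hz)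
    · rw [p1] at hz
      obtain ⟨g, hg⟩ := hz
      simp only [Option.some.injEq, Prod.mk.injEq] at hg
      exact Finset.mem_insert.2 (Or.inl hg.1.symm)
    · rw [p2] at hz
      exact Finset.mem_insert_of_mem (h.mid hp1 hz)
  · exact fun z hz => Finset.mem_insert_of_mem (h.bmem z hz)
  · rw [Finset.card_insert_of_notMem hv]
    have h1 := h.cnt
    simp only [drt_append, drt_inl, List.length_append, List.length_cons] at h1 ⊢
    omega
  · intro z hz i z' hz' hzz
    rw [s3 _ (Or.inl ⟨z, hz, i, rfl⟩)] at hzz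
    exact h.red z hz i z' hz' hzz

/-- inserting a face -/
theorem relL (hr : π (seg x c 0 ℓ) = 1) {T₁ T₂ : List (Dt ι ℓ ⊕ G)}
    (h : St x c A (T₁ ++ T₂) σ p b V) (hL : Lb π x A (T₁ ++ T₂) σ p b V μ) (sg : Bool)
    (i₀ : ZMod ℓ) (β : Γ)
    (hβ : β * ini π x c i₀ * (if sg then π (lX G (x i₀)) else 1) *
      π (cX ι (cor c ((0, sg), i₀))) = ev π μ b * π (tval (lab x) T₁)) :
    ∃ (K m : ℕ) (A' : Finset Fc) (σ' : Dt ι ℓ → Dt ι ℓ) (p' : Dt ι ℓ → Ps G) (V' : Finset ℕ)
      (μ' : ℕ → Γ), St x c A' (T₁ ++ (oblk x c K ((m, sg), i₀) ℓ ++ T₂)) σ' p' b V' ∧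
      Lb π x A' (T₁ ++ (oblk x c K ((m, sg), i₀) ℓ ++ T₂)) σ' p' b V' μ' ∧
      ev π μ' b = ev π μ b ∧
      cl π x A' p' μ' = cl π x A p μ + Finsupp.single β (if sg then -1 else 1) := by
  classical
  obtain ⟨K, hK⟩ := exists_fresh_out (T₁ ++ T₂)
  obtain ⟨m, hm⟩ := exists_fresh_face A (T₁ ++ T₂)
  obtain ⟨s, hp1, hp2⟩ := pth_append.1 h.path
  obtain ⟨a, ha⟩ : ∃ a : Fc, a = (m, sg) := ⟨_, rfl⟩
  obtain ⟨haA, haT⟩ := hm sg
  rw [← ha] at haA haT
  obtain ⟨M, hM⟩ : ∃ M : ℕ, ∀ v ∈ V, v < M :=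
    ⟨V.sup id + 1, fun v hv => Nat.lt_succ_of_le (Finset.le_sup (f := id) hv)⟩
  obtain ⟨P, hP⟩ : ∃ P : Fc × ZMod ℓ → Ps G, P = fun e => if e = (a, i₀) then
    pm s (cor c (a, i₀))⁻¹ else some (M + e.2.val, 1) := ⟨_, rfl⟩
  have hP0 : P (a, i₀) = pm s (cor c (a, i₀))⁻¹ := by rw [hP]; simp
  have hP1 : ∀ i, i ≠ i₀ → P (a, i) = some (M + i.val, 1) := by
    intro i hi
    rw [hP]; simp [hi]
  obtain ⟨σ', hσ'⟩ : ∃ σ' : Dt ι ℓ → Dt ι ℓ, σ' = fun f => match f with
    | .inl e => if e.1 = a then od x K e else σ (.inl e)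
    | .inr (k, α) => if K ≤ k then .inl (a, ((k - K : ℕ) : ZMod ℓ)) else σ (.inr (k, α)) :=
      ⟨_, rfl⟩
  obtain ⟨p', hp'⟩ : ∃ p' : Dt ι ℓ → Ps G, p' = fun f => match f with
    | .inl e => if e.1 = a then P e else p (.inl e)
    | .inr (k, α) => if K ≤ k then pm (P (prv (a, ((k - K : ℕ) : ZMod ℓ))))
        (cor c (prv (a, ((k - K : ℕ) : ZMod ℓ)))) else p (.inr (k, α)) := ⟨_, rfl⟩
  have hne : ∀ f, Live A (T₁ ++ T₂) f → (∀ i, f ≠ .inl (a, i)) ∧ (∀ k α, K ≤ k →
      f ≠ .inr (k, α)) := by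
    rintro f (⟨a', ha', i, rfl⟩ | hf)
    · refine ⟨fun i' h1 => ?_, fun k α hk => by simp⟩
      simp only [Sum.inl.injEq, Prod.mk.injEq] at h1
      exact haA (h1.1 ▸ ha')
    · refine ⟨fun i' h1 => ?_, fun k α hk h1 => ?_⟩
      · subst h1; exact haT i' hf
      · subst h1; exact hK k hk α hf
  have s1 : ∀ i, σ' (.inl (a, i)) = od x K (a, i) := by
    intro i; rw [hσ']; simp
  have s2 : ∀ i, σ' (od x K (a, i)) = .inl (a, i) := by
    intro i; rw [hσ']; simp [od]
  have s3 : ∀ f, Live A (T₁ ++ T₂) f → σ' f = σ f := by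
    intro f hf
    obtain ⟨h1, h2⟩ := hne f hf
    rw [hσ']
    rcases f with ⟨a', i⟩ | ⟨k, α⟩
    · have h3 : a' ≠ a := by
        rintro rfl; exact h1 i rfl
      simp [h3]
    · have h3 : ¬ K ≤ k := fun hk => h2 k α hk rfl
      simp [h3]
  have p1 : ∀ i, p' (.inl (a, i)) = P (a, i) := by
    intro i; rw [hp']; simp
  have p2 : ∀ i, p' (od x K (a, i)) = pm (P (prv (a, i))) (cor c (prv (a, i))) := by
    intro i; rw [hp']; simp [od]
  have p3 : ∀ f, Live A (T₁ ++ T₂) f → p' f = p f := by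
    intro f hf
    obtain ⟨h1, h2⟩ := hne f hf
    rw [hp']
    rcases f with ⟨a', i⟩ | ⟨k, α⟩
    · have h3 : a' ≠ a := by
        rintro rfl; exact h1 i rfl
      simp [h3]
    · have h3 : ¬ K ≤ k := fun hk => h2 k α hk rfl
      simp [h3]
  have hLive : ∀ f, Live (insert a A) (T₁ ++ (oblk x c K (a, i₀) ℓ ++ T₂)) f ↔
      Live A (T₁ ++ T₂) f ∨ (∃ i, f = .inl (a, i)) ∨ (∃ i, f = od x K (a, i)) := by
    intro f
    simp only [Live, List.mem_append, mem_oblk, Finset.mem_insert]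
    constructor
    · rintro (⟨a', rfl | ha', i, rfl⟩ | h1 | h1 | h1)
      · exact Or.inr (Or.inl ⟨i, rfl⟩)
      · exact Or.inl (Or.inl ⟨a', ha', i, rfl⟩)
      · exact Or.inl (Or.inr (Or.inl h1))
      · exact Or.inr (Or.inr h1)
      · exact Or.inl (Or.inr (Or.inr h1))
    · rintro ((⟨a', ha', i, rfl⟩ | h1 | h1) | ⟨i, rfl⟩ | h1)
      · exact Or.inl ⟨a', Or.inr ha', i, rfl⟩
      · exact Or.inr (Or.inl h1)
      · exact Or.inr (Or.inr (Or.inr h1))
      · exact Or.inl ⟨a, Or.inl rfl, i, rfl⟩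
      · exact Or.inr (Or.inr (Or.inl h1))
  have hP2 : ∀ i v, At v (P (a, i)) → v ∈ V ∪ ((Finset.univ : Finset (ZMod ℓ)).erase i₀).image
      (fun i => M + i.val) := by
    intro i v hv
    by_cases hi : i = i₀
    · subst hi
      rw [hP0, at_pm] at hv
      exact Finset.mem_union_left _ (h.mid hp1 hv)
    · rw [hP1 i hi] at hv
      obtain ⟨g, hg⟩ := hv
      simp only [Option.some.injEq, Prod.mk.injEq] at hg
      refine Finset.mem_union_right _ (Finset.mem_image.2 ⟨i, ?_, hg.1⟩)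
      exact Finset.mem_erase.2 ⟨hi, Finset.mem_univ _⟩
  have hcardN : (((Finset.univ : Finset (ZMod ℓ)).erase i₀).image
      (fun i => M + i.val)).card = ℓ - 1 := by
    rw [Finset.card_image_of_injective, Finset.card_erase_of_mem (Finset.mem_univ _),
      Finset.card_univ, ZMod.card]
    intro i j hij
    apply ZMod.val_injective
    simpa using hij
  have hdisj : Disjoint V (((Finset.univ : Finset (ZMod ℓ)).erase i₀).image
      (fun i => M + i.val)) := by
    rw [Finset.disjoint_left]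
    intro v hv hv'
    obtain ⟨i, -, rfl⟩ := Finset.mem_image.1 hv'
    have := hM _ hv
    omega
  obtain ⟨hs0, hs1⟩ := pth_ev π μ (lab x) hp1 hL.sb fun f hf =>
    ⟨hL.sp f (Or.inr (by simp [hf])), hL.edge f (Or.inr (by simp [hf]))⟩
  obtain ⟨F, hF⟩ : ∃ F : ZMod ℓ → Γ, F = fun i =>
    β * ini π x c i * (if sg then π (lX G (x i)) else 1) := ⟨_, rfl⟩
  obtain ⟨μ', hμ'⟩ : ∃ μ' : ℕ → Γ, μ' = fun z =>
    if M ≤ z then F ((z - M : ℕ) : ZMod ℓ) else μ z := ⟨_, rfl⟩
  have hμ : ∀ q : Ps G, (∀ z, At z q → z ∈ V) → ev π μ' q = ev π μ q := fun q hq =>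
    ev_congr π fun z hz => by
      have h1 := hM z (hq z hz)
      rw [hμ']
      exact if_neg (by omega)
  have hPn : ∀ i, P (a, i) ≠ none := by
    intro i
    by_cases hi : i = i₀
    · rw [hi, hP0]; exact pm_ne hs0 _
    · rw [hP1 i hi]; simp
  have hPe : ∀ i, ev π μ' (P (a, i)) = F i := by
    intro i
    by_cases hi : i = i₀
    · rw [hi, hP0, ev_pm π μ' hs0, hμ s (fun z hz => h.mid hp1 hz), hs1, ← hβ, hF, ha]
      have h1 : cor c ((m, sg), i₀) = cor c ((0, sg), i₀) := rfl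
      rw [h1, cX_inv, map_inv]
      group
    · rw [hP1 i hi]
      simp [ev, hμ']
  have hFe : ∀ i, F (prv (a, i)).2 * π (cX ι (cor c (prv (a, i)))) * π (lX G (ilab x (a, i))) =
      F i := by
    intro i
    rw [hF, ha]
    cases sg
    · simp only [prv, cor, ilab, Bool.false_eq_true, if_false, add_sub_cancel_right, cX_inv,
        lX_linv, map_inv, ini_succ hr]
      group
    · have h1 := ini_succ hr (i - 1)
      rw [sub_add_cancel] at h1
      simp only [prv, cor, ilab, if_true, h1]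
      group
  have hprv : ∀ i : ZMod ℓ, prv (a, i) = (a, (prv (a, i)).2) := fun i => rfl
  have hoe : ∀ i, ev π μ' (p' (od x K (a, i))) =
      F (prv (a, i)).2 * π (cX ι (cor c (prv (a, i)))) := by
    intro i
    rw [p2, hprv i, ev_pm π μ' (hPn _), hPe]
  have hLb : Lb π x (insert a A) (T₁ ++ (oblk x c K (a, i₀) ℓ ++ T₂)) σ' p' b
      (V ∪ ((Finset.univ : Finset (ZMod ℓ)).erase i₀).image (fun i => M + i.val)) μ' := by
    refine ⟨hL.sb, fun f hf => ?_, fun f hf => ?_, ?_⟩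
    · rcases (hLive f).1 hf with h1 | ⟨i, rfl⟩ | ⟨i, rfl⟩
      · rw [p3 f h1]; exact hL.sp f h1
      · rw [p1]; exact hPn i
      · rw [p2]; exact pm_ne (hPn _) _
    · rcases (hLive f).1 hf with h1 | ⟨i, rfl⟩ | ⟨i, rfl⟩
      · rw [s3 f h1, p3 f h1, p3 _ (h.slive f h1), hμ _ (h.vmem f h1),
          hμ _ (h.vmem _ (h.slive f h1))]
        exact hL.edge f h1
      · rw [s1, hoe, p1, hPe]
        exact hFe i
      · rw [s2, hoe, p1, hPe, ← hFe i]
        have h1 : lab x (od x K (a, i)) = linv (ilab x (a, i)) := rfl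
        rw [h1, lX_linv, map_inv]
        group
    · rcases hL.conn with hc | hc
      · refine Or.inl fun S hS h2 f hf => ?_
        have h3 : ∀ g, Live A (T₁ ++ T₂) g → (vx (p (σ g)) ∈ S ↔ vx (p g) ∈ S) := by
          intro g hg
          have h4 := h2 g ((hLive g).2 (Or.inl hg))
          rwa [s3 g hg, p3 g hg, p3 _ (h.slive g hg)] at h4
        have h4 : vx s ∈ S := pth_conn hp1 (fun f hf => h3 f (Or.inr (by simp [hf]))) hS
        have h5 : ∀ k : ℕ, vx (P (prv^[k] (a, i₀))) ∈ S := by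
          intro k
          induction k with
          | zero =>
            show vx (P (a, i₀)) ∈ S
            rwa [hP0, vx_pm]
          | succ k ih =>
            obtain ⟨j, hj⟩ : ∃ j, prv^[k] (a, i₀) = (a, j) := ⟨_, prv_iter k a i₀⟩
            rw [Function.iterate_succ_apply', hj]
            rw [hj] at ih
            have h6 := h2 (.inl (a, j)) ((hLive _).2 (Or.inr (Or.inl ⟨j, rfl⟩)))
            rw [s1, p2, p1, vx_pm] at h6
            exact h6.2 ih
        have h6 : ∀ i, vx (P (a, i)) ∈ S := by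
          intro i
          obtain ⟨k, -, hk⟩ := exists_prv_iter a i₀ i
          rw [← hk]
          exact h5 k
        rcases (hLive f).1 hf with h1 | ⟨i, rfl⟩ | ⟨i, rfl⟩
        · rw [p3 f h1]
          exact hc S hS h3 f h1
        · rw [p1]
          exact h6 i
        · rw [p2, vx_pm]
          exact h6 _
      · right
        rw [Finset.card_union_of_disjoint hdisj, hcardN, Finset.card_insert_of_notMem haA]
        have h2 : 0 < ℓ := Nat.pos_of_ne_zero (NeZero.ne ℓ)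
        simp only [drt_append, List.length_append, length_drt_oblk] at hc ⊢
        rw [Nat.mul_add]
        omega
  have hcl : cl π x (insert a A) p' μ' =
      cl π x A p μ + Finsupp.single β (if sg then -1 else 1) := by
    have h1 : cl π x A p' μ' = cl π x A p μ := cl_congr π x fun z hz => by
      rw [p3 _ (Or.inl ⟨z, hz, 0, rfl⟩), hμ _ (h.vmem _ (Or.inl ⟨z, hz, 0, rfl⟩))]
    have h2 : sl π x p' μ' a 0 = β := by
      rw [sl, p1, hPe, hF, ha]
      cases sg <;> simp [ini_zero]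
    rw [← h1]
    unfold cl
    rw [Finset.sum_insert haA, h2, add_comm, ha]
  refine ⟨K, m, insert a A, σ', p', V ∪ ((Finset.univ : Finset (ZMod ℓ)).erase i₀).image
      (fun i => M + i.val), μ', ?_, by rw [← ha]; exact hLb, hμ b h.bmem, hcl⟩
  rw [← ha]
  refine ⟨?_, ?_, ?_, ?_, ?_, ?_, ?_, ?_, ?_, ?_, ?_, ?_⟩
  · have h1 := h.nodup
    rw [drt_append] at h1 ⊢
    rw [drt_append]
    have h2 : (drt (oblk x c K (a, i₀) ℓ)).Disjoint (drt T₁ ++ drt T₂) := by
      intro f hf hf'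
      rw [mem_drt, mem_oblk] at hf
      obtain ⟨j, rfl⟩ := hf
      rw [← drt_append, mem_drt] at hf'
      exact hK _ (Nat.le_add_right _ _) _ hf'
    have h3 : (drt (oblk x c K (a, i₀) ℓ) ++ (drt T₁ ++ drt T₂)).Nodup :=
      (nodup_oblk K a i₀).append h1 h2
    refine (List.Perm.nodup_iff ?_).1 h3
    rw [← List.append_assoc, ← List.append_assoc]
    exact List.Perm.append_right _ List.perm_append_comm
  · intro z hz i hi
    simp only [List.mem_append, mem_oblk] at hi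
    rcases hi with hi | ⟨j, hj⟩ | hi
    · rcases Finset.mem_insert.1 hz with rfl | hz
      · exact haT i (by simp [hi])
      · exact h.disj z hz i (by simp [hi])
    · simp [od] at hj
    · rcases Finset.mem_insert.1 hz with rfl | hz
      · exact haT i (by simp [hi])
      · exact h.disj z hz i (by simp [hi])
  · intro f hf
    rcases (hLive f).1 hf with h1 | ⟨i, rfl⟩ | ⟨i, rfl⟩
    · rw [s3 f h1]; exact (hLive _).2 (Or.inl (h.slive f h1))
    · rw [s1]; exact (hLive _).2 (Or.inr (Or.inr ⟨i, rfl⟩))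
    · rw [s2]; exact (hLive _).2 (Or.inr (Or.inl ⟨i, rfl⟩))
  · intro f hf
    rcases (hLive f).1 hf with h1 | ⟨i, rfl⟩ | ⟨i, rfl⟩
    · rw [s3 f h1, s3 _ (h.slive f h1), h.ssig f h1]
    · rw [s1, s2]
    · rw [s2, s1]
  · intro f hf
    rcases (hLive f).1 hf with h1 | ⟨i, rfl⟩ | ⟨i, rfl⟩
    · rw [s3 f h1, h.slab f h1]
    · rw [s1]; rfl
    · rw [s2]; simp [lab, od]
  · intro z hz i
    rcases Finset.mem_insert.1 hz with rfl | hz
    · have h1 : nxt (z, i) = (z, (nxt (z, i)).2) := rfl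
      rw [h1, s1, p2, ← h1, prv_nxt, p1]
    · have h1 : Live A (T₁ ++ T₂) (.inl (nxt (z, i))) := Or.inl ⟨z, hz, _, rfl⟩
      rw [s3 _ h1, p3 _ (h.slive _ h1), p3 _ (Or.inl ⟨z, hz, i, rfl⟩), h.inner z hz i]
  · have q1 : ∀ f, Sum.inl f ∈ T₁ → Live A (T₁ ++ T₂) f := fun f hf => Or.inr (by simp [hf])
    have q2 : ∀ f, Sum.inl f ∈ T₂ → Live A (T₁ ++ T₂) f := fun f hf => Or.inr (by simp [hf])
    refine pth_append.2 ⟨s, pth_congr (fun f hf => ?_) (fun f hf => p3 f (q1 f hf)) hp1, ?_⟩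
    · rw [s3 f (q1 f hf), p3 _ (h.slive f (q1 f hf))]
    · refine pth_append.2 ⟨s, ?_, pth_congr (fun f hf => ?_) (fun f hf => p3 f (q2 f hf)) hp2⟩
      · have h1 := pth_oblk (σ := σ') (p := p') (x := x) (c := c) (K := K) (a := a) (P := P)
          (fun i => by rw [s2, p1]) p2 ℓ i₀
        rw [prv_iter_l, hP0] at h1
        simpa using h1
      · rw [s3 f (q2 f hf), p3 _ (h.slive f (q2 f hf))]
  · intro z hz
    rcases Finset.mem_union.1 hz with hz | hz
    · rcases h.att z hz with h1 | ⟨f, h1, h2⟩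
      · exact Or.inl h1
      · exact Or.inr ⟨f, (hLive _).2 (Or.inl h1), by rw [p3 f h1]; exact h2⟩
    · obtain ⟨i, hi, rfl⟩ := Finset.mem_image.1 hz
      refine Or.inr ⟨.inl (a, i), (hLive _).2 (Or.inr (Or.inl ⟨i, rfl⟩)), 1, ?_⟩
      rw [p1, hP1 i (Finset.ne_of_mem_erase hi)]
  · intro f hf z hz
    rcases (hLive f).1 hf with h1 | ⟨i, rfl⟩ | ⟨i, rfl⟩
    · rw [p3 f h1] at hz
      exact Finset.mem_union_left _ (h.vmem f h1 z hz)
    · rw [p1] at hz
      exact hP2 i z hz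
    · rw [p2, at_pm] at hz
      exact hP2 (prv (a, i)).2 z hz
  · exact fun z hz => Finset.mem_union_left _ (h.bmem z hz)
  · rw [Finset.card_union_of_disjoint hdisj, hcardN, Finset.card_insert_of_notMem haA]
    have h1 := h.cnt
    have h2 : 0 < ℓ := Nat.pos_of_ne_zero (NeZero.ne ℓ)
    simp only [drt_append, List.length_append, length_drt_oblk] at h1 ⊢
    rw [Nat.mul_add]
    omega
  · intro z hz i z' hz' hzz
    rcases Finset.mem_insert.1 hz with rfl | hz
    · rw [s1] at hzz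
      simp [od] at hzz
    · have hl : Live A (T₁ ++ T₂) (.inl (z, i)) := Or.inl ⟨z, hz, i, rfl⟩
      rw [s3 _ hl] at hzz
      rcases Finset.mem_insert.1 hz' with rfl | hz'
      · exact absurd hzz ((hne _ (h.slive _ hl)).1 i)
      · exact h.red z hz i z' hz' hzz

end Vale.Agent.N174.Lab
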