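import Vale.Agent.N174.Lab2

/-!
P174: the identity theorem for one relator over an ordered set.
-/

namespace Vale.Agent.N174.Lab

open Vale.Agent.P174.LO

universe u v w

variable {G : Type u} [Group G] {ι : Type v} {ℓ : ℕ} [NeZero ℓ] {Γ : Type w} [Group Γ]

/-- an element which can be inserted into every labelled state, with the change of the class -/
def InsL (π : XX G ι →* Γ) (x : ZMod ℓ → ι × Bool) (c : ZMod ℓ → G) (v : XX G ι)
    (a : Γ → (Γ →₀ ℤ)) : Prop :=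
  ∀ (A : Finset Fc) (T₁ T₂ : List (Dt ι ℓ ⊕ G)) (σ : Dt ι ℓ → Dt ι ℓ) (p : Dt ι ℓ → Ps G)
    (b : Ps G) (V : Finset ℕ) (μ : ℕ → Γ), St x c A (T₁ ++ T₂) σ p b V →
    Lb π x A (T₁ ++ T₂) σ p b V μ →
    ∃ (A' : Finset Fc) (T : List (Dt ι ℓ ⊕ G)) (σ' : Dt ι ℓ → Dt ι ℓ) (p' : Dt ι ℓ → Ps G)
      (V' : Finset ℕ) (μ' : ℕ → Γ), St x c A' (T₁ ++ (T ++ T₂)) σ' p' b V' ∧
        Lb π x A' (T₁ ++ (T ++ T₂)) σ' p' b V' μ' ∧ tval (lab x) T = v ∧
        ev π μ' b = ev π μ b ∧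
        cl π x A' p' μ' = cl π x A p μ + a (ev π μ b * π (tval (lab x) T₁))

variable {π : XX G ι →* Γ} {x : ZMod ℓ → ι × Bool} {c : ZMod ℓ → G}

omit [NeZero ℓ] in
theorem InsL.one : InsL π x c 1 fun _ => 0 := fun A T₁ T₂ σ p b V μ h hL =>
  ⟨A, [], σ, p, V, μ, by simpa using h, by simpa using hL, rfl, rfl, by simp⟩

omit [NeZero ℓ] in
theorem InsL.mul {v v' : XX G ι} {a a' : Γ → (Γ →₀ ℤ)} (h : InsL π x c v a)
    (h' : InsL π x c v' a') : InsL π x c (v * v') fun β => a β + a' β := by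
  intro A T₁ T₂ σ p b V μ hS hL
  obtain ⟨A₁, S₁, σ₁, p₁, V₁, μ₁, hS₁, hL₁, hv₁, e₁, c₁⟩ := h' A T₁ T₂ σ p b V μ hS hL
  obtain ⟨A₂, S₂, σ₂, p₂, V₂, μ₂, hS₂, hL₂, hv₂, e₂, c₂⟩ :=
    h A₁ T₁ (S₁ ++ T₂) σ₁ p₁ b V₁ μ₁ hS₁ hL₁
  refine ⟨A₂, S₂ ++ S₁, σ₂, p₂, V₂, μ₂, by simpa using hS₂, by simpa using hL₂,
    by rw [tval_append, hv₁, hv₂], e₂.trans e₁, ?_⟩
  rw [c₂, c₁, e₁]
  abel

omit [NeZero ℓ] in
theorem InsL.coef {v : XX G ι} {a : Γ → (Γ →₀ ℤ)} (h : InsL π x c v a) (g : G) :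
    InsL π x c (cX ι g * v * (cX ι g)⁻¹) fun β => a (β * π (cX ι g)) := by
  intro A T₁ T₂ σ p b V μ hS hL
  have h1 : St x c A (T₁ ++ (([] : List G).map Sum.inr ++ T₂)) σ p b V := by simpa using hS
  have l1 : Lb π x A (T₁ ++ (([] : List G).map Sum.inr ++ T₂)) σ p b V μ := by simpa using hL
  have h2 := h1.coef (Hs := [g, g⁻¹]) (by simp)
  have l2 := l1.coef [g, g⁻¹]
  have h3 : St x c A ((T₁ ++ [.inr g]) ++ (.inr g⁻¹ :: T₂)) σ p b V := by simpa using h2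
  have l3 : Lb π x A ((T₁ ++ [.inr g]) ++ (.inr g⁻¹ :: T₂)) σ p b V μ := by simpa using l2
  obtain ⟨A₁, S₁, σ₁, p₁, V₁, μ₁, hS₁, hL₁, hv₁, e₁, c₁⟩ := h _ _ _ _ _ _ _ _ h3 l3
  refine ⟨A₁, .inr g :: (S₁ ++ [.inr g⁻¹]), σ₁, p₁, V₁, μ₁, by simpa using hS₁,
    by simpa using hL₁, by simp [hv₁, mul_assoc], e₁, ?_⟩
  rw [c₁]
  simp [mul_assoc]

omit [NeZero ℓ] in
theorem InsL.letter {v : XX G ι} {a : Γ → (Γ →₀ ℤ)} (h : InsL π x c v a) (z : ι × Bool) :
    InsL π x c (lX G z * v * (lX G z)⁻¹) fun β => a (β * π (lX G z)) := by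
  intro A T₁ T₂ σ p b V μ hS hL
  obtain ⟨k, σ₀, p₀, V₀, μ₀, h1, l1, e₀, c₀⟩ := spurL hS hL z
  have h3 : St x c A ((T₁ ++ [.inl (.inr (k, z))]) ++ (.inl (.inr (k, linv z)) :: T₂))
    σ₀ p₀ b V₀ := by simpa using h1
  have l3 : Lb π x A ((T₁ ++ [.inl (.inr (k, z))]) ++ (.inl (.inr (k, linv z)) :: T₂))
    σ₀ p₀ b V₀ μ₀ := by simpa using l1
  obtain ⟨A₁, S₁, σ₁, p₁, V₁, μ₁, hS₁, hL₁, hv₁, e₁, c₁⟩ := h _ _ _ _ _ _ _ _ h3 l3
  refine ⟨A₁, .inl (.inr (k, z)) :: (S₁ ++ [.inl (.inr (k, linv z))]), σ₁, p₁, V₁, μ₁,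
    by simpa using hS₁, by simpa using hL₁, by simp [hv₁, mul_assoc, lab, lX_linv],
    e₁.trans e₀, ?_⟩
  rw [c₁, c₀, e₀]
  simp [mul_assoc, lab]

omit [NeZero ℓ] in
theorem InsL.conj {v : XX G ι} {a : Γ → (Γ →₀ ℤ)} (h : InsL π x c v a) (u : XX G ι) :
    InsL π x c (u * v * u⁻¹) fun β => a (β * π u) := by
  induction u using XX_induction with
  | one => simpa using h
  | coef g u ih =>
    have h1 := ih.coef g
    have h2 : cX ι g * u * v * (cX ι g * u)⁻¹ = cX ι g * (u * v * u⁻¹) * (cX ι g)⁻¹ := by group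
    rw [h2]
    simpa only [map_mul, mul_assoc] using h1
  | letter z u ih =>
    have h1 := ih.letter z
    have h2 : lX G z * u * v * (lX G z * u)⁻¹ = lX G z * (u * v * u⁻¹) * (lX G z)⁻¹ := by group
    rw [h2]
    simpa only [map_mul, mul_assoc] using h1

theorem InsL.rel_inv (hr : π (seg x c 0 ℓ) = 1) :
    InsL π x c (seg x c 0 ℓ)⁻¹ fun β => Finsupp.single β (-1) := by
  intro A T₁ T₂ σ p b V μ hS hL
  obtain ⟨K, m, A', σ', p', V', μ', h1, l1, e1, c1⟩ := relL hr hS hL true (-1)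
    (ev π μ b * π (tval (lab x) T₁)) (by
      have h1 := ini_succ hr (-1)
      rw [neg_add_cancel, ini_zero] at h1
      have h2 : cor c ((0, true), (-1 : ZMod ℓ)) = c (-1) := rfl
      rw [h2, if_pos rfl, mul_assoc, mul_assoc, ← h1, mul_one])
  refine ⟨A', _, σ', p', V', μ', h1, l1, ?_, e1, c1⟩
  have h2 := tval_oblk_true (x := x) (c := c) K m ℓ (-1)
  have h3 : (-1 : ZMod ℓ) + 1 - (ℓ : ZMod ℓ) = 0 := by simp
  rw [h3] at h2
  exact eq_inv_of_mul_eq_one_left h2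

theorem InsL.rel (hr : π (seg x c 0 ℓ) = 1) :
    InsL π x c (seg x c 0 ℓ) fun β => Finsupp.single β 1 := by
  have h0 : InsL π x c (cX ι (c (-1)) * seg x c 0 ℓ * (cX ι (c (-1)))⁻¹)
      fun β => Finsupp.single (β * π (cX ι (c (-1)))) 1 := by
    intro A T₁ T₂ σ p b V μ hS hL
    have h4 : (0 : ZMod ℓ) - 1 = -1 := by simp
    obtain ⟨K, m, A', σ', p', V', μ', h1, l1, e1, c1⟩ := relL hr hS hL false 0
      (ev π μ b * π (tval (lab x) T₁) * π (cX ι (c (-1)))) (by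
        have h2 : cor c ((0, false), (0 : ZMod ℓ)) = (c (0 - 1))⁻¹ := rfl
        rw [h2, h4, ini_zero, cX_inv, map_inv]
        simp)
    refine ⟨A', _, σ', p', V', μ', h1, l1, ?_, e1, c1⟩
    have h2 := tval_oblk_false (x := x) (c := c) K m ℓ 0
    have h3 : (0 : ZMod ℓ) - 1 + (ℓ : ZMod ℓ) = -1 := by simp
    rw [h3, h4] at h2
    exact eq_mul_inv_of_mul_eq h2
  have h1 := h0.coef (c (-1))⁻¹
  have h2 : cX ι (c (-1))⁻¹ * (cX ι (c (-1)) * seg x c 0 ℓ * (cX ι (c (-1)))⁻¹) *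
      (cX ι (c (-1))⁻¹)⁻¹ = seg x c 0 ℓ := by
    rw [cX_inv]
    group
  rw [h2] at h1
  simpa only [cX_inv, map_inv, inv_mul_cancel_right] using h1

/-- products of conjugates of `r` -/
def evS (r : XX G ι) : FreeGroup (XX G ι) →* XX G ι := FreeGroup.lift fun u => u * r * u⁻¹

/-- the class of a formal product of conjugates -/
noncomputable def clS (π : XX G ι →* Γ) (β : Γ) :
    FreeGroup (XX G ι) →* Multiplicative (Γ →₀ ℤ) :=
  FreeGroup.lift fun u => Multiplicative.ofAdd (Finsupp.single (β * π u) 1)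

theorem insL_evS (hr : π (seg x c 0 ℓ) = 1) (s : FreeGroup (XX G ι)) :
    InsL π x c (evS (seg x c 0 ℓ) s) fun β => Multiplicative.toAdd (clS π β s) := by
  induction s using FreeGroup.induction_on with
  | C1 => simpa using InsL.one
  | of u => simpa [evS, clS] using (InsL.rel hr).conj u
  | inv_of u _ =>
    have h1 := (InsL.rel_inv hr).conj u
    have h2 : evS (seg x c 0 ℓ) (FreeGroup.of u)⁻¹ = u * (seg x c 0 ℓ)⁻¹ * u⁻¹ := by
      simp [evS, mul_assoc]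
    rw [h2]
    simpa [clS] using h1
  | mul s t hs ht => simpa using hs.mul ht

/-- reduction of the boundary word -/
theorem reduceL (hπ : ∀ g h : G, π (cX ι g) = π (cX ι h) → g = h) (μ : ℕ → Γ) (n : ℕ) :
    ∀ (A : Finset Fc) (T : List (Dt ι ℓ ⊕ G))
    (σ : Dt ι ℓ → Dt ι ℓ) (p : Dt ι ℓ → Ps G) (b : Ps G) (V : Finset ℕ),
    ℓ * A.card + (drt T).length ≤ n → St x c A T σ p b V → Lb π x A T σ p b V μ →
    tval (lab x) T = 1 →
    ∃ (A' : Finset Fc) (T' : List (Dt ι ℓ ⊕ G)) (σ' : Dt ι ℓ → Dt ι ℓ) (p' : Dt ι ℓ → Ps G)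
      (b' : Ps G) (V' : Finset ℕ), St x c A' T' σ' p' b' V' ∧ Lb π x A' T' σ' p' b' V' μ ∧
        drt T' = [] ∧ cl π x A' p' μ = cl π x A p μ := by
  classical
  induction n with
  | zero =>
    intro A T σ p b V hn hS hL hv
    refine ⟨A, T, σ, p, b, V, hS, hL, ?_, rfl⟩
    have : (drt T).length = 0 := by omega
    exact List.eq_nil_of_length_eq_zero this
  | succ n ih =>
    intro A T σ p b V hn hS hL hv
    by_cases hT : drt T = []
    · exact ⟨A, T, σ, p, b, V, hS, hL, hT, rfl⟩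
    · obtain ⟨f, hf⟩ := List.exists_mem_of_ne_nil _ hT
      rw [mem_drt] at hf
      obtain ⟨T₁, d, Gs, d', T₂, rfl, hGs, hdd⟩ :=
        exists_cancel (g := 1) (lab x) (by rw [hv, cX_one]) hf
      have h1 : St x c A ((T₁ ++ [.inl d]) ++ (Gs.map Sum.inr ++ (.inl d' :: T₂))) σ p b V := by
        simpa using hS
      have l1 : Lb π x A ((T₁ ++ [.inl d]) ++ (Gs.map Sum.inr ++ (.inl d' :: T₂))) σ p b V μ := by
        simpa using hL
      have h2 := h1.coef (Hs := []) (by simpa using hGs)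
      have l2 := l1.coef []
      have h3 : St x c A (T₁ ++ .inl d :: .inl d' :: T₂) σ p b V := by simpa using h2
      have l3 : Lb π x A (T₁ ++ .inl d :: .inl d' :: T₂) σ p b V μ := by simpa using l2
      have hv' : tval (lab x) (T₁ ++ T₂) = 1 := by
        rw [← hv]
        simp only [tval_append, tval_inl, tval_map_inr, hGs, cX_one, one_mul, hdd, lX_linv]
        group
      simp only [drt_append, drt_inl, drt_map_inr, List.length_append, List.length_cons,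
        List.length_nil] at hn
      by_cases hm : ∀ a ∈ A, ∀ i, ∀ a' ∈ A, σ d = .inl (a, i) → σ d' = .inl (a', i) → a'.2 = a.2
      · obtain ⟨σ', p', b', V', h4, l4, c4⟩ := zipL hπ h3 l3 hdd hm
        rw [← c4]
        refine ih A (T₁ ++ T₂) σ' p' b' V' ?_ h4 l4 hv'
        rw [drt_append, List.length_append]
        omega
      · push Not at hm
        obtain ⟨a, ha, i, a', ha', e1, e2, e3⟩ := hm
        have h4 := h3.unpeel ha ha' e1 e2 e3
        obtain ⟨l4, c4⟩ := unpeelL h3 l3 ha ha' e1 e2 e3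
        have haa : a ≠ a' := by rintro rfl; exact e3 rfl
        have hc : ((A.erase a).erase a').card + 2 = A.card := by
          have h5 : a' ∈ A.erase a := Finset.mem_erase.2 ⟨haa.symm, ha'⟩
          rw [Finset.card_erase_of_mem h5, Finset.card_erase_of_mem ha]
          have h6 : 0 < (A.erase a).card := Finset.card_pos.2 ⟨a', h5⟩
          rw [Finset.card_erase_of_mem ha] at h6
          omega
        rw [← c4]
        refine ih _ _ σ p b V ?_ h4 l4 ?_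
        · simp only [drt_append, List.length_append, length_drt_rblk]
          have hl : 0 < ℓ := Nat.pos_of_ne_zero (NeZero.ne ℓ)
          rw [← hc, Nat.mul_add] at hn
          omega
        · rw [← hv', tval_append, tval_append, tval_append, ← mul_assoc (tval _ (rblk _ _ _ _)),
            tval_rblk_mirror e3, one_mul, tval_append]

omit [NeZero ℓ] in
/-- a state without outer darts gives a closed map -/
theorem cm_of_st {A : Finset Fc} {T : List (Dt ι ℓ ⊕ G)} {σ : Dt ι ℓ → Dt ι ℓ}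
    {p : Dt ι ℓ → Ps G} {b : Ps G} {V : Finset ℕ} (hS : St x c A T σ p b V)
    (hno : ∀ f, Sum.inl f ∉ T) (V' : Finset ℕ)
    (hV : ∀ v ∈ V', ∃ a ∈ A, ∃ i, At v (p (.inl (a, i))))
    (hcnt : ℓ * A.card + 2 ≤ 2 * V'.card + 2 * A.card) :
    ∃ σ' : Fc × ZMod ℓ → Fc × ZMod ℓ, Cm x c A σ' (fun e => p (.inl e)) V' := by
  classical
  have hLive : ∀ f, Live A T f ↔ ∃ a ∈ A, ∃ i, f = .inl (a, i) := by
    intro f
    simp [Live, hno]
  have hs : ∀ a ∈ A, ∀ i, ∃ e : Fc × ZMod ℓ, e.1 ∈ A ∧ σ (.inl (a, i)) = .inl e := by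
    intro a ha i
    obtain ⟨a', ha', i', h1⟩ := (hLive _).1 (hS.slive (.inl (a, i)) ((hLive _).2 ⟨a, ha, i, rfl⟩))
    exact ⟨(a', i'), ha', h1⟩
  let σ' : Fc × ZMod ℓ → Fc × ZMod ℓ := fun e =>
    match σ (.inl e) with
    | .inl e' => e'
    | .inr _ => e
  have hσ' : ∀ a ∈ A, ∀ i, σ (.inl (a, i)) = .inl (σ' (a, i)) := by
    intro a ha i
    obtain ⟨e, h1, h2⟩ := hs a ha i
    simp only [σ', h2]
  have hsA : ∀ a ∈ A, ∀ i, (σ' (a, i)).1 ∈ A := by
    intro a ha i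
    obtain ⟨e, h1, h2⟩ := hs a ha i
    rw [hσ' a ha i, Sum.inl.injEq] at h2
    rwa [h2]
  have hslab : ∀ a ∈ A, ∀ i, ilab x (σ' (a, i)) = linv (ilab x (a, i)) := by
    intro a ha i
    have h2 := hS.slab (.inl (a, i)) ((hLive _).2 ⟨a, ha, i, rfl⟩)
    rw [hσ' a ha i] at h2
    exact h2
  refine ⟨σ', hsA, ?_, hslab, ?_, hV, hcnt, ?_⟩
  · intro a ha i
    have h1 := hS.ssig (.inl (a, i)) ((hLive _).2 ⟨a, ha, i, rfl⟩)
    have h2 := hσ' (σ' (a, i)).1 (hsA a ha i) (σ' (a, i)).2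
    rw [hσ' a ha i] at h1
    have h3 : σ (.inl (σ' (a, i))) = .inl (σ' (σ' (a, i))) := h2
    rw [h3, Sum.inl.injEq] at h1
    exact h1
  · intro a ha i
    have h1 := hS.inner a ha i
    have h2 : σ (.inl (nxt (a, i))) = .inl (σ' (nxt (a, i))) := hσ' _ ha _
    rw [h2] at h1
    exact h1
  · intro a ha i h1
    obtain ⟨e, h2⟩ : ∃ e, e = σ' (a, i) := ⟨_, rfl⟩
    rcases e with ⟨a', i'⟩
    rw [← h2] at h1
    simp only at h1
    subst h1
    have h3 := hsA a ha i'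
    rw [← h2] at h3
    have h4 := hS.red a ha i' a' h3 (by rw [hσ' a ha i', ← h2])
    have h5 := hslab a ha i'
    rw [← h2] at h5
    have h6 : ilab x (a', i') = ilab x (a, i') := by
      simp only [ilab, h4]
    rw [h6] at h5
    exact linv_ne _ h5.symm

theorem closedL {Ω : Type*} [LinearOrder Ω] (O : OD x c Ω) {A : Finset Fc}
    {T : List (Dt ι ℓ ⊕ G)} {σ : Dt ι ℓ → Dt ι ℓ} {p : Dt ι ℓ → Ps G} {b : Ps G} {V : Finset ℕ}
    {μ : ℕ → Γ} (hS : St x c A T σ p b V) (hL : Lb π x A T σ p b V μ) (hT : drt T = []) :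
    A = ∅ := by
  classical
  by_contra hA
  obtain ⟨a₀, ha₀⟩ := Finset.nonempty_iff_ne_empty.2 hA
  have hno : ∀ f, Sum.inl f ∉ T := by
    intro f hf
    rw [← mem_drt, hT] at hf
    simp at hf
  have hLive : ∀ f, Live A T f ↔ ∃ a ∈ A, ∃ i, f = .inl (a, i) := by
    intro f
    simp [Live, hno]
  have hc := hS.cnt
  rw [hT] at hc
  by_cases hb : ∃ a ∈ A, ∃ i, At (vx b) (p (.inl (a, i)))
  · obtain ⟨σ', h⟩ := cm_of_st hS hno V (fun v hv => by
      rcases hS.att v hv with h1 | ⟨f, h1, h2⟩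
      · rw [← vx_of_at h1]
        exact hb
      · obtain ⟨a, ha, i, rfl⟩ := (hLive f).1 h1
        exact ⟨a, ha, i, h2⟩) (by simpa using hc)
    exact O.no_closed h
  · have hne : ∀ f, Live A T f → vx (p f) ≠ vx b := by
      intro f hf h1
      have h2 := at_vx (hL.sp f hf)
      obtain ⟨a, ha, i, rfl⟩ := (hLive f).1 hf
      exact hb ⟨a, ha, i, h1 ▸ h2⟩
    rcases hL.conn with h1 | h1
    · have h2 : Live A T (.inl (a₀, 0)) := Or.inl ⟨a₀, ha₀, 0, rfl⟩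
      exact hne _ h2 (h1 {vx b} rfl (fun d hd =>
        iff_of_false (hne _ (hS.slive d hd)) (hne d hd)) _ h2)
    · rw [hT] at h1
      obtain ⟨σ', h⟩ := cm_of_st hS hno (V.erase (vx b)) (fun v hv => by
        rcases hS.att v (Finset.mem_of_mem_erase hv) with h1 | ⟨f, h1, h2⟩
        · exact absurd (vx_of_at h1).symm (Finset.ne_of_mem_erase hv)
        · obtain ⟨a, ha, i, rfl⟩ := (hLive f).1 h1
          exact ⟨a, ha, i, h2⟩) (by
        have h2 := Finset.pred_card_le_card_erase (s := V) (a := vx b)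
        simp only [List.length_nil] at h1
        omega)
      exact O.no_closed h

/-- **The identity theorem.** -/
theorem identity {Ω : Type*} [LinearOrder Ω] (O : OD x c Ω) (hr : π (seg x c 0 ℓ) = 1)
    (hπ : ∀ g h : G, π (cX ι g) = π (cX ι h) → g = h) {s : FreeGroup (XX G ι)}
    (hs : evS (seg x c 0 ℓ) s = 1) : clS π 1 s = 1 := by
  have l0 : Lb π x ∅ ([] ++ []) (id : Dt ι ℓ → Dt ι ℓ) (fun _ => none) (some (0, 1)) {0}
      (fun _ => 1) :=
    ⟨by simp, by simp [Live], by simp [Live], Or.inl fun S _ _ d hd => by simp [Live] at hd⟩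
  obtain ⟨A, T, σ, p, V, μ, h1, l1, hv, -, c1⟩ := insL_evS hr s ∅ [] [] id (fun _ => none)
    (some (0, 1)) {0} (fun _ => 1) (by simpa using st_nil) l0
  obtain ⟨A', T', σ', p', b', V', h2, l2, hT, c2⟩ := reduceL hπ μ _ A _ σ p _ V le_rfl h1 l1
    (by simpa [hs] using hv)
  rw [closedL O h2 l2 hT, c1] at c2
  apply Multiplicative.toAdd.injective
  simpa [cl, ev] using c2.symm

end Vale.Agent.N174.Lab
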