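import Vale.Agent.N174.Lab3
import Vale.Agent.N174.Cover

/-!
P174: one equation whose image over a left-orderable quotient of the coefficient group is not
conjugate to a coefficient.
-/

namespace Vale.Agent.N174

open Vale.Agent.P174.LO Vale.Agent.N174.Lab Monoid

universe u v w t

variable {G : Type u} [Group G] {Q : Type v} [Group Q] {J : Type w}

theorem exists_evS {r v : XX Q J} (h : v ∈ Subgroup.normalClosure {r}) : ∃ s, evS r s = v := by
  have h1 : Subgroup.normalClosure {r} ≤ (evS r).range := by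
    unfold Subgroup.normalClosure
    rw [Subgroup.closure_le]
    intro y hy
    rw [Group.conjugatesOfSet, Set.mem_iUnion₂] at hy
    obtain ⟨a, ha, hy⟩ := hy
    rw [Set.mem_singleton_iff] at ha
    subst ha
    rw [conjugatesOf, Set.mem_ofPred_eq, isConj_iff] at hy
    obtain ⟨u, rfl⟩ := hy
    exact ⟨FreeGroup.of u, by simp [evS]⟩
  exact h1 h

/-- a section compatible with the coefficients -/
theorem exists_section {Γ : Type t} [Group Γ] (π : XX Q J →* Γ) (hs : Function.Surjective π)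
    (hπ : ∀ g h : Q, π (cX J g) = π (cX J h) → g = h) :
    ∃ T : Γ → XX Q J, (∀ z, π (T z) = z) ∧ ∀ z q, T (z * π (cX J q)) = T z * cX J q := by
  let ρ : Q →* Γ := π.comp Coprod.inl
  have hρ : ∀ q, ρ q = π (cX J q) := fun q => rfl
  let o : Γ → Γ := fun z => (QuotientGroup.mk z : Γ ⧸ ρ.range).out
  have h1 : ∀ z, ∃ q, ρ q = (o z)⁻¹ * z := fun z =>
    QuotientGroup.eq.1 (QuotientGroup.out_eq' (QuotientGroup.mk z : Γ ⧸ ρ.range))
  choose k hk using h1
  have h2 : ∀ z q, o (z * ρ q) = o z := by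
    intro z q
    simp only [o]
    rw [QuotientGroup.mk_mul_of_mem z (show ρ q ∈ ρ.range from ⟨q, rfl⟩)]
  refine ⟨fun z => Function.surjInv hs (o z) * cX J (k z), fun z => ?_, fun z q => ?_⟩
  · rw [map_mul, Function.surjInv_eq hs, ← hρ, hk]
    group
  · have h3 : k (z * ρ q) = k z * q := by
      apply hπ
      rw [← hρ, ← hρ, hk, map_mul, hk, h2, mul_assoc]
    show Function.surjInv hs (o (z * ρ q)) * cX J (k (z * ρ q)) = _
    rw [h2, h3, cX_mul, mul_assoc]

theorem exists_kappa {Γ : Type t} [Group Γ] (π : XX Q J →* Γ) {r : XX Q J}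
    (hid : ∀ s, evS r s = 1 → clS π 1 s = 1) :
    ∃ κ : XX Q J → Multiplicative (Γ →₀ ℤ), ∀ s, κ (evS r s) = clS π 1 s := by
  classical
  refine ⟨fun v => if h : ∃ s, evS r s = v then clS π 1 h.choose else 1, fun s => ?_⟩
  have h : ∃ s', evS r s' = evS r s := ⟨s, rfl⟩
  simp only [dif_pos h]
  have h1 := hid (h.choose * s⁻¹) (by rw [map_mul, map_inv, h.choose_spec, mul_inv_cancel])
  rwa [map_mul, map_inv, mul_inv_eq_one] at h1

/-- an abelian cocycle which vanishes on the coefficients factors through the chains -/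
theorem exists_linear {Γ : Type t} [Group Γ] {M : Type*} [AddCommGroup M]
    {ψ : Coprod G (FreeGroup J) →* Γ} {c : Coprod G (FreeGroup J) → Γ → Multiplicative M}
    (hc : IsCoc ψ c) (h0 : ∀ g y, c (Coprod.inl g) y = 1) :
    ∃ f : (J × Γ →₀ ℤ) →ₗ[ℤ] M, ∀ a y,
      f (Multiplicative.toAdd (chain ψ a y)) = Multiplicative.toAdd (c a y) := by
  let f : (J × Γ →₀ ℤ) →ₗ[ℤ] M := Finsupp.linearCombination ℤ (fun p : J × Γ =>
      Multiplicative.toAdd (c (Coprod.inr (FreeGroup.of p.1)) p.2))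
  have h := hc.ext ((chain_coc ψ).map (AddMonoidHom.toMultiplicative f.toAddMonoidHom))
    (fun g y => by rw [chain_inl, map_one, h0])
    (fun j y => by
      rw [chain_inr]
      simp [f])
  exact ⟨f, fun a y => (congrArg Multiplicative.toAdd (h a y)).symm⟩

theorem indep_single {Γ : Type t} {e : Γ → Γ} (he : Function.Injective e) {N : ℕ} (hN : 1 ≤ N) :
    LinearIndependent ℤ fun y : Γ => (Finsupp.single (e y) (N : ℤ) : Γ →₀ ℤ) := by
  classical
  rw [linearIndependent_iff']
  intro s g h y hy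
  have h1 := DFunLike.congr_fun h (e y)
  rw [Finsupp.finsetSum_apply, Finset.sum_eq_single y] at h1
  · simp only [Finsupp.smul_single, smul_eq_mul, Finsupp.single_eq_same, Finsupp.zero_apply,
      mul_eq_zero] at h1
    rcases h1 with h1 | h1
    · exact h1
    · omega
  · intro z _ hz
    rw [Finsupp.smul_single, Finsupp.single_eq_of_ne fun h2 => hz (he h2).symm]
  · intro h2
    exact absurd hy h2

theorem indep_of_identity {Γ : Type t} [Group Γ] (π : XX Q J →* Γ) (hs : Function.Surjective π)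
    (hπ : ∀ g h : Q, π (cX J g) = π (cX J h) → g = h) {r : XX Q J} (hr : π r = 1)
    (hker : ∀ v, π v = 1 → ∃ s, evS r s = v) (hid : ∀ s, evS r s = 1 → clS π 1 s = 1)
    (φ : G →* Q) {w : XX G J} {u : XX Q J} {N : ℕ} (hN : 1 ≤ N)
    (hw : jX J φ w = u * r ^ N * u⁻¹) :
    LinearIndependent ℤ fun y : Γ => Multiplicative.toAdd (chain (π.comp (jX J φ)) w y) := by
  obtain ⟨T, hT1, hT2⟩ := exists_section π hs hπ
  obtain ⟨κ, hκ⟩ := exists_kappa π hid
  have hκ1 : κ 1 = 1 := by
    have h := hκ 1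
    rwa [map_one, map_one] at h
  have hκm : ∀ v v', π v = 1 → π v' = 1 → κ (v * v') = κ v * κ v' := by
    intro v v' h h'
    obtain ⟨s, rfl⟩ := hker v h
    obtain ⟨s', rfl⟩ := hker v' h'
    rw [← map_mul, hκ, hκ, hκ, map_mul]
  obtain ⟨ψ, hψ⟩ : ∃ ψ, ψ = π.comp (jX J φ) := ⟨_, rfl⟩
  have hψ' : ∀ a, ψ a = π (jX J φ a) := fun a => by rw [hψ]; rfl
  rw [← hψ]
  have hm : ∀ a y, π (T y⁻¹ * jX J φ a * (T (y⁻¹ * ψ a))⁻¹) = 1 := by
    intro a y
    rw [map_mul, map_mul, map_inv, hT1, hT1, hψ']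
    group
  have hc : IsCoc ψ fun a y => κ (T y⁻¹ * jX J φ a * (T (y⁻¹ * ψ a))⁻¹) := by
    intro a a' y
    show κ _ = κ _ * κ _
    rw [← hκm _ _ (hm a y) (hm a' _), smul_eq_mul, mul_inv_rev, inv_inv, map_mul, map_mul,
      ← mul_assoc y⁻¹]
    congr 1
    group
  obtain ⟨f, hf⟩ := exists_linear hc (fun g y => by
    have h1 : jX J φ (Coprod.inl g) = cX J (φ g) := jX_cX φ g
    show κ _ = 1
    rw [hψ', h1, hT2, mul_inv_cancel, hκ1])
  have hψw : ψ w = 1 := by
    rw [hψ', hw, map_mul, map_mul, map_pow, hr, one_pow, mul_one, ← map_mul, mul_inv_cancel,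
      map_one]
  apply LinearIndependent.of_comp f
  have h1 : (f ∘ fun y : Γ => Multiplicative.toAdd (chain ψ w y)) =
      fun y : Γ => Finsupp.single (y⁻¹ * π u) (N : ℤ) := by
    funext y
    have h3 : T y⁻¹ * jX J φ w * (T (y⁻¹ * ψ w))⁻¹ = evS r (FreeGroup.of (T y⁻¹ * u) ^ N) := by
      rw [hψw, mul_one, hw, map_pow, evS, FreeGroup.lift_apply_of, conj_pow]
      group
    rw [Function.comp_apply, hf, h3, hκ, map_pow, clS, FreeGroup.lift_apply_of, map_mul, hT1]
    simp
  rw [h1]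
  exact indep_single (fun y y' h2 => inv_injective (mul_right_cancel h2)) hN

theorem injects_countable [LinearOrder Q] [Countable Q] [Countable J]
    (hQ : ∀ a b c : Q, b < c → a * b < a * c) (φ : G →* Q) (w : XX G J)
    (hw : ∀ (u : XX Q J) (q : Q), jX J φ w ≠ u * cX J q * u⁻¹) {I : Type t} [Unique I] :
    Injects fun _ : I => w := by
  rcases exists_cyc_red (jX J φ w) with ⟨u, q, hu⟩ | ⟨ℓ, h0, x, c, u, hcr, hu⟩
  · exact absurd hu (hw u q)
  obtain ⟨d, h0', x', c', N, hcr', hnp', hN, hroot⟩ := exists_root hcr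
  obtain ⟨Ω, i1, ⟨O⟩⟩ := exists_OD hQ hcr' hnp'
  rw [hroot] at hu
  obtain ⟨π, hπ0⟩ : ∃ π, π = QuotientGroup.mk' (Subgroup.normalClosure {seg x' c' 0 d}) :=
    ⟨_, rfl⟩
  have hk : ∀ v, π v = 1 ↔ v ∈ Subgroup.normalClosure {seg x' c' 0 d} := fun v => by
    rw [hπ0]
    exact QuotientGroup.eq_one_iff v
  have hr : π (seg x' c' 0 d) = 1 := (hk _).2 (Subgroup.subset_normalClosure rfl)
  have hπ : ∀ g h : Q, π (cX J g) = π (cX J h) → g = h := by
    intro g h h1
    have h2 : g * h⁻¹ = 1 := O.free ((hk _).1 (by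
      rw [cX_mul, cX_inv, map_mul, map_inv, h1, mul_inv_cancel]))
    exact mul_inv_eq_one.1 h2
  have hind := indep_of_identity π (by rw [hπ0]; exact QuotientGroup.mk'_surjective _) hπ hr
    (fun v hv => exists_evS ((hk v).1 hv)) (fun s hs => identity O hr hπ hs) φ hN hu
  refine injects_of_chain (π.comp (jX J φ)) _ (fun _ => ?_)
    (hind.comp Prod.snd (Equiv.uniqueProd _ I).injective)
  rw [MonoidHom.comp_apply, hu]
  simp [hr]

/-- **One equation over a group with a left-orderable image.** -/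
theorem injects_of_LO [Countable J] (hQ : LeftOrderable Q) (φ : G →* Q) (w : XX G J)
    (hw : ∀ (u : XX Q J) (q : Q), jX J φ w ≠ u * cX J q * u⁻¹) {I : Type t} [Unique I] :
    Injects fun _ : I => w := by
  rw [injects_iff]
  intro g hg
  rw [Set.range_const] at hg
  obtain ⟨S, h1, h2, W', z', h3, h4, h5⟩ := exists_Cns' hg {g} (Set.countable_singleton g)
  have hHc : Countable (Subgroup.closure S) := countable_closure h1
  have hg' : g ∈ Subgroup.closure S := Subgroup.subset_closure (h2 rfl)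
  have hz : z' = cX J ⟨g, hg'⟩ := jX_injective (Subgroup.subtype_injective _)
    (h4.trans (by rw [jX_cX]; rfl))
  let ψ : Subgroup.closure S →* Q := φ.comp (Subgroup.closure S).subtype
  have hcQ : Countable ψ.range := (MonoidHom.rangeRestrict_surjective ψ).countable
  obtain ⟨r, hr⟩ := hQ
  let _ : LinearOrder ψ.range := @LinearOrder.lift' _ _ r (fun t => (t : Q)) Subtype.val_injective
  have hr' : ∀ a b c : ψ.range, b < c → a * b < a * c := fun a b c hbc => hr a b c hbc
  have key := injects_countable hr' ψ.rangeRestrict W' (I := I) (fun u q h => by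
    apply hw (jX J ψ.range.subtype u) q
    have h6 := congrArg (jX J ψ.range.subtype) h
    rw [jX_comp, map_mul, map_mul, map_inv, jX_cX] at h6
    rw [← h3, jX_comp]
    exact h6)
  rw [injects_iff] at key
  have h6 := key ⟨g, hg'⟩ (by rw [Set.range_const]; rwa [hz] at h5)
  exact congrArg Subtype.val h6

theorem solvable_of_LO {n : ℕ} (hQ : LeftOrderable Q) (φ : G →* Q) (w : P174.Words G n)
    (hw : ∀ q : Q, ¬ IsConj (Coprod.map φ (MonoidHom.id _) w) (Coprod.inl q)) :
    P174.SolvableOver fun _ : Fin 1 => w := by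
  refine (solvable_iff _).2 (injects_of_LO hQ φ w fun u q h => hw q ?_)
  rw [isConj_comm, isConj_iff]
  exact ⟨u, h.symm⟩

end Vale.Agent.N174
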